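import Vale.Agent.P284.H15.T.Fix

/-!
# P284 (helper15), T3⁺, (T9b), (T9c): elements commuting with a subgroup of finite index of `K` act
trivially; the quotient of `K` acting on the affine Hilbert bundle does not have property (T)
-/

open scoped Manifold ContDiff Topology InnerProductSpace ComplexConjugate Pointwise
open Filter Set Metric

noncomputable section

namespace Vale.Agent.P284.H15.Del

open Vale.Agent.P272.K Vale.Agent.P284.H894.G Vale.Agent.P284.H894.V Vale.Agent.P284.H894.W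
  Vale.Agent.P284.H213.Grp Vale.Agent.P284.H619 Vale.Agent.P284.H119.Kaz Vale.Agent.P284.H885.Ker
  Vale.Agent.P284.H650.T Vale.Agent.P284.H494 Vale.Agent.P284.H378

section
variable {n q : ℕ} {X : Type} [TopologicalSpace X] [ChartedSpace (Cm n) X]
  {E Γ : Type} [TopologicalSpace E] [Group Γ] [MulAction Γ E] {p : E → X} {F : E → Cm q}
  {W : Type} [NormedAddCommGroup W] [InnerProductSpace ℂ W]

/-- vertical vectors at translates -/
theorem vs_smul {w : Chart n X → Cm n → Matrix (Fin n) (Fin n) ℂ} {B : ℝ} {c : Γ → Cm q}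
    (hG : IsGalois Γ p) (hF : HolB p w F B) (hFe : ∀ g y, F (g • y) = F y + c g) (g : Γ) {y : E}
    {e : Chart n X} (he : At e (p y)) {ξ : Cm n} (hξ : ξ ∈ VS p F y e) : ξ ∈ VS p F (g • y) e := by
  obtain ⟨f, h1, h2⟩ := H221.holB_an hF y he
  have h3 : ∀ᶠ y' in 𝓝 (g • y), F y' = (fun z => f z + c g) (e (p y')) := by
    have h4 : Tendsto (fun y' => g⁻¹ • y') (𝓝 (g • y)) (𝓝 y) := by
      have := (hG.cont g⁻¹).tendsto (g • y)
      simpa using this
    filter_upwards [h4.eventually h2] with y' hy'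
    have h5 := hFe g (g⁻¹ • y')
    rw [smul_inv_smul] at h5
    rw [h5, hy', H10.p_smul' hG]
  rw [mem_VS hG.cov (by rw [H10.p_smul' hG]; exact he) (f := fun z => f z + c g) h3,
    H10.p_smul' hG, fderiv_add_const]
  exact (mem_VS hG.cov he h2).1 hξ

omit [ChartedSpace (Cm n) X] in
/-- the derivative of a potential along the fibre through `y` -/
theorem jpot_at {Θ : E → Chart n X → (Cm n →L[ℂ] W)} {y : E} {e : Chart n X} {G : Cm n → W}
    (h : JPot p F Θ y e G) {ξ : Cm n} (hξ : ξ ∈ VS p F y e) :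
    fderiv ℂ G (e (p y)) ξ = Θ y e ξ := h.pot.self_of_nhds ξ hξ

end

/-- **(T9b)** -/
theorem centStmt (hTh : ThStmt) (hSep : SepStmt) : CentStmt := by
  intro n q X _ _ _ _ _ _ w E Γ _ _ _ _ p F c K hStd W _ _ _ π S Θ J T hJ hT hTe K' hK' hfi g hg
    hcomm
  have hfix := fixStmt hTh hSep n q X w E Γ p F c K hStd W π S Θ J hJ K' hK' hfi
  obtain ⟨hme, hThE, hpot, htot, hact⟩ := hTh n q X w E Γ p F c K hStd W π S Θ J hJ
  obtain ⟨hRo, hRd, -, hRc, -, -⟩ := hSep n q X w E Γ p F c K hStd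
  obtain ⟨B, hB⟩ := hStd.hol
  have hG := hStd.gal
  have hp := hG.cov
  have hHE : HolE n p F := holE_of hB
  have hF0 : ∀ k ∈ K, ∀ y, F (k • y) = F y := fun k hk y => by
    rw [hStd.eqv, (hStd.ker k).1 hk, add_zero]
  have hFg : ∀ y, F (g • y) = F y := fun y => by rw [hStd.eqv, hg, add_zero]
  have hJ1 := hJ.isJ.invol
  have hJ2 := hJ.isJ.inner
  -- the displacement of `g` is locally `Φ + J Φ` along the fibre
  have hloc : ∀ y e, F y ∈ RV n p F → At e (p y) → ∃ Φ : Cm n → W,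
      AnalyticAt ℂ Φ (e (p y)) ∧ (∀ᶠ y' in 𝓝 y, F y' = F y →
        T y' (g • y') = Φ (e (p y')) + J (Φ (e (p y')))) ∧
      ∀ ξ ∈ VS p F y e, fderiv ℂ Φ (e (p y)) ξ = π g (Θ y e ξ) - Θ y e ξ := by
    intro y e hy he
    have hry : Reg (n := n) p F y := hy y rfl
    have hry' : Reg (n := n) p F (g • y) := hy (g • y) (hFg y)
    have hpg : p (g • y) = p y := H10.p_smul' hG g y
    have he' : At e (p (g • y)) := by rw [hpg]; exact he
    obtain ⟨G, hGp⟩ := hpot y e hry he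
    obtain ⟨G', hGp'⟩ := hpot (g • y) e hry' he'
    obtain ⟨a, ha, hev⟩ := hT.loc y (g • y) e e G G' (hFg y).symm hy he he' hGp hGp'
    have hcont : Tendsto (fun y' => (y', g • y')) (𝓝 y) (𝓝 (y, g • y)) :=
      (continuous_id.prodMk (hG.cont g)).tendsto y
    have hG'an : AnalyticAt ℂ G' (e (p y)) := by have := hGp'.an; rwa [hpg] at this
    refine ⟨fun z => G' z - G z + a (F y), (hG'an.sub hGp.an).add analyticAt_const, ?_, ?_⟩
    · filter_upwards [hcont.eventually hev] with y' h1 h2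
      have h3 := h1 (hFg y').symm
      have h4 : p (g • y') = p y' := H10.p_smul' hG g y'
      rw [h4] at h3
      rw [h3, h2]
    · intro ξ hξ
      have h1 : HasFDerivAt (fun z => G' z - G z + a (F y))
          (fderiv ℂ G' (e (p y)) - fderiv ℂ G (e (p y))) (e (p y)) :=
        (hG'an.differentiableAt.hasFDerivAt.sub hGp.an.differentiableAt.hasFDerivAt).add_const _
      rw [h1.fderiv, _root_.sub_apply, jpot_at hGp hξ]
      have h2 := jpot_at hGp' (vs_smul hG hB hStd.eqv g he hξ)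
      rw [hpg] at h2
      rw [h2, hThE.equi g y e hry he ξ hξ]
  -- the displacement vanishes over the regular values
  have hzero : ∀ y, F y ∈ RV n p F → T y (g • y) = 0 := by
    intro y₀ hy₀
    have hreg : ∀ y', F y' = F y₀ → Reg (n := n) p F y' := hy₀
    obtain ⟨D, hD, hDcov⟩ := H15.G.compact_fib hG hHE hStd.eqv hStd.lat
      ⟨{1}, Set.finite_singleton _, fun g hg => ⟨1, rfl, by
        rw [inv_one, one_mul]; exact (hStd.ker g).2 hg⟩⟩ hfi (F y₀)
    have hequi : ∀ k ∈ K', ∀ y, F y = F y₀ → T (k • y) (g • k • y) = π k (T y (g • y)) := by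
      intro k hk y hy
      rw [← hTe k y (g • y) (hFg y).symm (by rw [hy]; exact hy₀), ← mul_smul, ← mul_smul,
        hcomm k hk]
    obtain ⟨M, hM⟩ := const_of_max (t := F y₀) hp hHE (hRc _ hy₀) hreg hJ1 hJ2
      (u := fun y => T y (g • y)) (fun y e hy he => by
        obtain ⟨Φ, h1, h2, -⟩ := hloc y e (by rw [hy]; exact hy₀) he
        refine ⟨Φ, h1, ?_⟩
        filter_upwards [h2] with y' h3 h4
        exact h3 (h4.trans hy.symm)) hD (w := 0) (fun y hy => by
        obtain ⟨k, hk, hkD⟩ := hDcov y hy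
        refine ⟨k • y, hkD, by rw [hF0 k (hK' hk), hy], ?_⟩
        show ‖T (k • y) (g • k • y) - 0‖ = ‖T y (g • y) - 0‖
        rw [hequi k hk y hy, sub_zero, sub_zero, (π k).norm_map])
    have hM' : ∀ y, F y = F y₀ → T y (g • y) = M := hM
    rw [hM' y₀ rfl]
    refine hfix M fun k hk => ?_
    have h1 := hequi k hk y₀ rfl
    rw [hM' y₀ rfl, hM' (k • y₀) (hF0 k (hK' hk) y₀)] at h1
    exact h1.symm
  refine ⟨?_, hzero⟩
  refine hact g fun y e hy he ξ hξ => ?_
  set L : W →L[ℂ] W := ((π g).toLinearIsometry.toContinuousLinearMap) -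
    ContinuousLinearMap.id ℂ W with hL
  have hLv : ∀ v, L v = π g v - v := fun v => rfl
  have h1 := dense_ext hp hB hThE.hol hRd (C := {a | L a = 0})
    (isClosed_eq L.continuous continuous_const) (fun y e hy he ξ hξ => by
      obtain ⟨Φ, h1, h2, h3⟩ := hloc y e hy he
      show L (Θ y e ξ) = 0
      rw [hLv, ← h3 ξ hξ]
      refine deriv_zero_J (t := F y) hp hHE rfl he (hy y rfl) hJ1 hJ2 h1 (M := 0) ?_ ξ hξ
      filter_upwards [h2] with y' k1 k2
      rw [← k1 k2]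
      exact hzero y' (by rw [k2]; exact hy)) y e hy he ξ hξ
  have h2 : L (Θ y e ξ) = 0 := h1
  rw [hLv, sub_eq_zero] at h2
  exact h2

/-- **(T9c)** -/
theorem notKazStmt (hTh : ThStmt) (hSep : SepStmt) : NotKazStmt := by
  intro n q X _ _ _ _ _ _ w E Γ _ _ _ _ p F c K hStd W _ _ _ π S Θ J T hJ hT hTe K₁ _ φ hφ hker hKz
  obtain ⟨hme, hThE, hpot, htot, hact⟩ := hTh n q X w E Γ p F c K hStd W π S Θ J hJ
  obtain ⟨hRo, hRd, -, hRc, -, -⟩ := hSep n q X w E Γ p F c K hStd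
  obtain ⟨B, hB⟩ := hStd.hol
  have hG := hStd.gal
  have hp := hG.cov
  have hHE : HolE n p F := holE_of hB
  have hF0 : ∀ k ∈ K, ∀ y, F (k • y) = F y := fun k hk y => by
    rw [hStd.eqv, (hStd.ker k).1 hk, add_zero]
  have hJ1 := hJ.isJ.invol
  have hJ2 := hJ.isJ.inner
  have hfi : (K.subgroupOf K).FiniteIndex := by
    rw [Subgroup.subgroupOf_self]
    infer_instance
  -- `Θ = 0` over the regular values
  have hzero : ∀ y e, F y ∈ RV n p F → At e (p y) → ∀ ξ ∈ VS p F y e, Θ y e ξ = 0 := by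
    intro y₀ e₀ hy₀ he₀ ξ₀ hξ₀
    have hreg : ∀ y', F y' = F y₀ → Reg (n := n) p F y' := hy₀
    obtain ⟨D, hD, hDcov⟩ := H15.G.compact_fib hG hHE hStd.eqv hStd.lat
      ⟨{1}, Set.finite_singleton _, fun g hg => ⟨1, rfl, by
        rw [inv_one, one_mul]; exact (hStd.ker g).2 hg⟩⟩ hfi (F y₀)
    -- the cocycle
    let b : K → W := fun k => T y₀ ((k : Γ) • y₀)
    have hFk : ∀ (k : K) y, F y = F y₀ → F ((k : Γ) • y) = F y₀ := fun k y hy => by
      rw [hF0 k k.2, hy]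
    have hue : ∀ (k : K) y, F y = F y₀ → T y₀ ((k : Γ) • y) = π (k : Γ) (T y₀ y) + b k := by
      intro k y hy
      rw [← hTe k y₀ y hy.symm hy₀, add_comm]
      exact (hT.add y₀ ((k : Γ) • y₀) ((k : Γ) • y) (hFk k y₀ rfl).symm
        ((hFk k y₀ rfl).trans (hFk k y hy).symm) hy₀).symm
    have hbm : ∀ k k' : K, b (k * k') = b k + π (k : Γ) (b k') := by
      intro k k'
      have h1 := hue k ((k' : Γ) • y₀) (hFk k' y₀ rfl)
      rw [add_comm, ← h1, ← mul_smul]
      rfl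
    have hbN : ∀ k ∈ φ.ker, b k = 0 := fun k hk => (hker k hk).2 y₀ hy₀
    let πK : K →* (W ≃ₗᵢ[ℂ] W) := π.comp K.subtype
    have hkerπ : φ.ker ≤ πK.ker := fun k hk => (hker k hk).1
    let πQ : K ⧸ φ.ker →* (W ≃ₗᵢ[ℂ] W) := QuotientGroup.lift φ.ker πK hkerπ
    let bQ : K ⧸ φ.ker → W := fun x => Quotient.liftOn' x b (by
      intro k k' hkk
      have h1 : k⁻¹ * k' ∈ φ.ker := QuotientGroup.leftRel_apply.1 hkk
      have h2 := hbm k (k⁻¹ * k')
      rw [mul_inv_cancel_left, hbN _ h1, map_zero, add_zero] at h2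
      exact h2.symm)
    have hKz' : Kazhdan (K ⧸ φ.ker) :=
      hKz.of_equiv (QuotientGroup.quotientKerEquivOfSurjective φ hφ).symm
    obtain ⟨x₀, hx₀⟩ := delormeC hKz' πQ bQ (by
      intro g h
      obtain ⟨g, rfl⟩ := QuotientGroup.mk_surjective g
      obtain ⟨h, rfl⟩ := QuotientGroup.mk_surjective h
      exact hbm g h)
    have hxk : ∀ k : K, π (k : Γ) x₀ + b k = x₀ := fun k => hx₀ (k : K ⧸ φ.ker)
    -- local structure of `T y₀`
    have hloc : ∀ y e, F y = F y₀ → At e (p y) → ∃ Φ : Cm n → W,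
        AnalyticAt ℂ Φ (e (p y)) ∧ (∀ᶠ y' in 𝓝 y, F y' = F y₀ →
          T y₀ y' = Φ (e (p y')) + J (Φ (e (p y')))) ∧
        ∀ ξ ∈ VS p F y e, fderiv ℂ Φ (e (p y)) ξ = Θ y e ξ := by
      intro y e hy he
      obtain ⟨G, hGp⟩ := hpot y₀ e₀ (hreg y₀ rfl) he₀
      obtain ⟨G', hGp'⟩ := hpot y e (hreg y hy) he
      obtain ⟨a, ha, hev⟩ := hT.loc y₀ y e₀ e G G' hy.symm hy₀ he₀ he hGp hGp'
      have hcont : Tendsto (fun y' => (y₀, y')) (𝓝 y) (𝓝 (y₀, y)) :=
        (continuous_const.prodMk continuous_id).tendsto y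
      refine ⟨fun z => G' z - G (e₀ (p y₀)) + a (F y₀),
        (hGp'.an.sub analyticAt_const).add analyticAt_const, ?_, ?_⟩
      · filter_upwards [hcont.eventually hev] with y' h1 h2
        exact h1 h2.symm
      · intro ξ hξ
        have h1 : HasFDerivAt (fun z => G' z - G (e₀ (p y₀)) + a (F y₀))
            (fderiv ℂ G' (e (p y))) (e (p y)) :=
          (hGp'.an.differentiableAt.hasFDerivAt.sub_const _).add_const _
        rw [h1.fderiv, jpot_at hGp' hξ]
    obtain ⟨M, hM⟩ := const_of_max (t := F y₀) hp hHE (hRc _ hy₀) hreg hJ1 hJ2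
      (u := fun y => T y₀ y) (fun y e hy he => by
        obtain ⟨Φ, h1, h2, -⟩ := hloc y e hy he
        exact ⟨Φ, h1, h2⟩) hD (w := x₀) (fun y hy => by
        obtain ⟨k, hk, hkD⟩ := hDcov y hy
        refine ⟨k • y, hkD, by rw [hF0 k hk, hy], ?_⟩
        show ‖T y₀ (k • y) - x₀‖ = ‖T y₀ y - x₀‖
        have h1 : T y₀ (k • y) - x₀ = π k (T y₀ y - x₀) := by
          conv_lhs => rw [← hxk ⟨k, hk⟩]
          rw [hue ⟨k, hk⟩ y hy, map_sub]
          abel
        rw [h1, (π k).norm_map])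
    have hM' : ∀ y, F y = F y₀ → T y₀ y = M := hM
    obtain ⟨Φ, h1, h2, h3⟩ := hloc y₀ e₀ rfl he₀
    rw [← h3 ξ₀ hξ₀]
    refine deriv_zero_J (t := F y₀) hp hHE rfl he₀ (hy₀ y₀ rfl) hJ1 hJ2 h1 (M := M) ?_ ξ₀ hξ₀
    filter_upwards [h2] with y' k1 k2
    rw [← k1 k2, hM' y' k2]
  have hzero' := dense_ext hp hB hThE.hol hRd (C := {0}) isClosed_singleton hzero
  have hW : ∀ x : W, x = 0 := by
    intro x
    refine htot x (fun y e hy he ξ hξ => ?_) fun y e hy he ξ hξ => ?_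
    · rw [hzero' y e hy he ξ hξ, inner_zero_right]
    · rw [hzero' y e hy he ξ hξ, inner_zero_right]
  obtain ⟨y, e, -, ξ, hne⟩ := hJ.rel.ne
  exact hne (hW _)

end Vale.Agent.P284.H15.Del
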