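import Mathlib.Analysis.InnerProductSpace.l2Space
import Mathlib.Analysis.Calculus.FDeriv.Linear

/-!
# P284 (helper15), T2: complexification of a real Hilbert space, direct sums of representations
-/

open scoped InnerProductSpace ComplexConjugate Topology ENNReal
open Filter

noncomputable section

set_option linter.unusedSectionVars false

namespace Vale.Agent.P284.H15.T

/-- the complexification of a real Hilbert space -/
structure Cx (H : Type) where
  re : H
  im : H

namespace Cx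

variable {H : Type} [NormedAddCommGroup H] [InnerProductSpace ℝ H]

@[ext] theorem ext' {x y : Cx H} (h1 : x.re = y.re) (h2 : x.im = y.im) : x = y := by
  cases x; cases y; simp only at h1 h2; subst h1; subst h2; rfl

instance : Zero (Cx H) := ⟨⟨0, 0⟩⟩
instance : Add (Cx H) := ⟨fun x y => ⟨x.re + y.re, x.im + y.im⟩⟩
instance : Neg (Cx H) := ⟨fun x => ⟨-x.re, -x.im⟩⟩
instance : Sub (Cx H) := ⟨fun x y => ⟨x.re - y.re, x.im - y.im⟩⟩
instance : SMul ℂ (Cx H) := ⟨fun c x => ⟨c.re • x.re - c.im • x.im, c.re • x.im + c.im • x.re⟩⟩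
instance : SMul ℕ (Cx H) := ⟨fun c x => ⟨c • x.re, c • x.im⟩⟩
instance : SMul ℤ (Cx H) := ⟨fun c x => ⟨c • x.re, c • x.im⟩⟩

@[simp] theorem zero_re : (0 : Cx H).re = 0 := rfl
@[simp] theorem zero_im : (0 : Cx H).im = 0 := rfl
@[simp] theorem add_re (x y : Cx H) : (x + y).re = x.re + y.re := rfl
@[simp] theorem add_im (x y : Cx H) : (x + y).im = x.im + y.im := rfl
@[simp] theorem neg_re (x : Cx H) : (-x).re = -x.re := rfl
@[simp] theorem neg_im (x : Cx H) : (-x).im = -x.im := rfl
@[simp] theorem sub_re (x y : Cx H) : (x - y).re = x.re - y.re := rfl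
@[simp] theorem sub_im (x y : Cx H) : (x - y).im = x.im - y.im := rfl
@[simp] theorem smul_re (c : ℂ) (x : Cx H) : (c • x).re = c.re • x.re - c.im • x.im := rfl
@[simp] theorem smul_im (c : ℂ) (x : Cx H) : (c • x).im = c.re • x.im + c.im • x.re := rfl
@[simp] theorem nsmul_re (c : ℕ) (x : Cx H) : (c • x).re = c • x.re := rfl
@[simp] theorem nsmul_im (c : ℕ) (x : Cx H) : (c • x).im = c • x.im := rfl
@[simp] theorem zsmul_re (c : ℤ) (x : Cx H) : (c • x).re = c • x.re := rfl
@[simp] theorem zsmul_im (c : ℤ) (x : Cx H) : (c • x).im = c • x.im := rfl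

/-- the underlying pair -/
def toPair (x : Cx H) : H × H := (x.re, x.im)

theorem toPair_injective : Function.Injective (toPair : Cx H → H × H) := by
  intro x y h
  have h1 := congrArg Prod.fst h
  have h2 := congrArg Prod.snd h
  exact ext' h1 h2

instance : AddCommGroup (Cx H) :=
  toPair_injective.addCommGroup toPair rfl (fun _ _ => rfl) (fun _ => rfl) (fun _ _ => rfl)
    (fun _ _ => rfl) (fun _ _ => rfl)

instance : Module ℂ (Cx H) where
  one_smul x := by ext <;> simp
  mul_smul a b x := by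
    ext
    · simp only [smul_re, smul_im, Complex.mul_re, Complex.mul_im]
      module
    · simp only [smul_re, smul_im, Complex.mul_re, Complex.mul_im]
      module
  smul_zero c := by ext <;> simp
  smul_add c x y := by
    ext
    · simp only [smul_re, add_re, add_im]; module
    · simp only [smul_im, add_re, add_im]; module
  add_smul a b x := by
    ext
    · simp only [smul_re, add_re, Complex.add_re, Complex.add_im]; module
    · simp only [smul_im, add_im, Complex.add_re, Complex.add_im]; module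
  zero_smul x := by ext <;> simp

/-- the scalar product -/
@[reducible] def core : InnerProductSpace.Core ℂ (Cx H) where
  inner x y := ⟨⟪x.re, y.re⟫_ℝ + ⟪x.im, y.im⟫_ℝ, ⟪x.re, y.im⟫_ℝ - ⟪x.im, y.re⟫_ℝ⟩
  conj_inner_symm x y := by
    apply Complex.ext
    · simp only [Complex.conj_re]
      rw [real_inner_comm, real_inner_comm y.im]
    · simp only [Complex.conj_im]
      rw [real_inner_comm, real_inner_comm y.im]
      ring
  re_inner_nonneg x := by
    simp only [RCLike.re_eq_complex_re]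
    exact add_nonneg real_inner_self_nonneg real_inner_self_nonneg
  add_left x y z := by
    apply Complex.ext
    · simp only [add_re, add_im, inner_add_left, Complex.add_re]; ring
    · simp only [add_re, add_im, inner_add_left, Complex.add_im]; ring
  smul_left x y c := by
    apply Complex.ext
    · simp only [smul_re, smul_im, inner_add_left, inner_sub_left, real_inner_smul_left,
        Complex.mul_re, Complex.conj_re, Complex.conj_im]
      ring
    · simp only [smul_re, smul_im, inner_add_left, inner_sub_left, real_inner_smul_left,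
        Complex.mul_im, Complex.conj_re, Complex.conj_im]
      ring
  definite x h := by
    have h1 := congrArg Complex.re h
    simp only [Complex.zero_re] at h1
    have h2 : ⟪x.re, x.re⟫_ℝ = 0 := le_antisymm
      (by linarith [real_inner_self_nonneg (x := x.im)]) real_inner_self_nonneg
    have h3 : ⟪x.im, x.im⟫_ℝ = 0 := le_antisymm
      (by linarith [real_inner_self_nonneg (x := x.re)]) real_inner_self_nonneg
    exact ext' (inner_self_eq_zero.1 h2) (inner_self_eq_zero.1 h3)

instance : NormedAddCommGroup (Cx H) := (core (H := H)).toNormedAddCommGroup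

instance : InnerProductSpace ℂ (Cx H) := InnerProductSpace.ofCore (core (H := H)).toCore

theorem inner_def (x y : Cx H) : ⟪x, y⟫_ℂ =
    ⟨⟪x.re, y.re⟫_ℝ + ⟪x.im, y.im⟫_ℝ, ⟪x.re, y.im⟫_ℝ - ⟪x.im, y.re⟫_ℝ⟩ := rfl

theorem norm_sq (x : Cx H) : ‖x‖ ^ 2 = ‖x.re‖ ^ 2 + ‖x.im‖ ^ 2 := by
  have h := norm_sq_eq_re_inner (𝕜 := ℂ) x
  rw [h, inner_def]
  simp only [RCLike.re_eq_complex_re, real_inner_self_eq_norm_sq]

theorem norm_re_le (x : Cx H) : ‖x.re‖ ≤ ‖x‖ := by
  refine le_of_sq_le_sq ?_ (norm_nonneg _)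
  rw [norm_sq]
  nlinarith [sq_nonneg ‖x.im‖]

theorem norm_im_le (x : Cx H) : ‖x.im‖ ≤ ‖x‖ := by
  refine le_of_sq_le_sq ?_ (norm_nonneg _)
  rw [norm_sq]
  nlinarith [sq_nonneg ‖x.re‖]

instance [CompleteSpace H] : CompleteSpace (Cx H) := by
  refine Metric.complete_of_cauchySeq_tendsto fun u hu => ?_
  have h1 : CauchySeq fun k => (u k).re := by
    rw [Metric.cauchySeq_iff] at hu ⊢
    intro ε hε
    obtain ⟨N, hN⟩ := hu ε hε
    refine ⟨N, fun m hm k hk => ?_⟩
    have := hN m hm k hk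
    rw [dist_eq_norm] at this ⊢
    exact (norm_re_le (u m - u k)).trans_lt this
  have h2 : CauchySeq fun k => (u k).im := by
    rw [Metric.cauchySeq_iff] at hu ⊢
    intro ε hε
    obtain ⟨N, hN⟩ := hu ε hε
    refine ⟨N, fun m hm k hk => ?_⟩
    have := hN m hm k hk
    rw [dist_eq_norm] at this ⊢
    exact (norm_im_le (u m - u k)).trans_lt this
  obtain ⟨a, ha⟩ := cauchySeq_tendsto_of_complete h1
  obtain ⟨b, hb⟩ := cauchySeq_tendsto_of_complete h2
  refine ⟨⟨a, b⟩, ?_⟩
  rw [tendsto_iff_norm_sub_tendsto_zero]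
  have h3 : Tendsto (fun k => ‖(u k).re - a‖ ^ 2 + ‖(u k).im - b‖ ^ 2) atTop (𝓝 0) := by
    have := ((tendsto_iff_norm_sub_tendsto_zero.1 ha).pow 2).add
      ((tendsto_iff_norm_sub_tendsto_zero.1 hb).pow 2)
    simpa using this
  have h4 : Tendsto (fun k => Real.sqrt (‖(u k).re - a‖ ^ 2 + ‖(u k).im - b‖ ^ 2)) atTop (𝓝 0) := by
    have := (Real.continuous_sqrt.tendsto 0).comp h3
    rwa [Real.sqrt_zero] at this
  refine h4.congr fun k => ?_
  have h5 := norm_sq (u k - ⟨a, b⟩)
  rw [sub_re, sub_im] at h5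
  rw [← h5, Real.sqrt_sq (norm_nonneg _)]

/-- the embedding -/
def of : H →L[ℝ] Cx H :=
  LinearMap.mkContinuous
    { toFun := fun x => ⟨x, 0⟩
      map_add' := fun x y => by ext <;> simp
      map_smul' := fun c x => by
        show (⟨c • x, 0⟩ : Cx H) = (c : ℂ) • (⟨x, 0⟩ : Cx H)
        apply ext'
        · rw [smul_re]
          simp
        · rw [smul_im]
          simp } 1 fun x => by
    rw [one_mul]
    refine le_of_sq_le_sq ?_ (norm_nonneg _)
    rw [norm_sq]
    simp

@[simp] theorem of_re (x : H) : (of x).re = x := rfl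
@[simp] theorem of_im (x : H) : (of x).im = 0 := rfl

/-- the norm of `x + i y` -/
theorem norm_sq_of (x y : H) : ‖of x + Complex.I • of y‖ ^ 2 = ‖x‖ ^ 2 + ‖y‖ ^ 2 := by
  rw [norm_sq]
  simp

/-- extension of an isometry -/
def map (A : H ≃ₗᵢ[ℝ] H) : Cx H ≃ₗᵢ[ℂ] Cx H where
  toFun x := ⟨A x.re, A x.im⟩
  map_add' x y := by ext <;> simp
  map_smul' c x := by ext <;> simp
  invFun x := ⟨A.symm x.re, A.symm x.im⟩
  left_inv x := by ext <;> simp
  right_inv x := by ext <;> simp
  norm_map' x := by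
    have h : ‖(⟨A x.re, A x.im⟩ : Cx H)‖ ^ 2 = ‖x‖ ^ 2 := by
      rw [norm_sq, norm_sq]
      simp
    exact (pow_left_inj₀ (norm_nonneg _) (norm_nonneg _) two_ne_zero).1 h

@[simp] theorem map_re (A : H ≃ₗᵢ[ℝ] H) (x : Cx H) : (map A x).re = A x.re := rfl
@[simp] theorem map_im (A : H ≃ₗᵢ[ℝ] H) (x : Cx H) : (map A x).im = A x.im := rfl

theorem map_of (A : H ≃ₗᵢ[ℝ] H) (x : H) : map A (of x) = of (A x) := by
  ext
  · rfl
  · simp

/-- complexification of a representation -/
def rep {Γ : Type} [Group Γ] (π : Γ →* (H ≃ₗᵢ[ℝ] H)) : Γ →* (Cx H ≃ₗᵢ[ℂ] Cx H) where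
  toFun g := map (π g)
  map_one' := by
    ext x
    · rw [map_re, map_one]; rfl
    · rw [map_im, map_one]; rfl
  map_mul' g h := by
    ext x
    · rw [map_re, map_mul]; rfl
    · rw [map_im, map_mul]; rfl

theorem rep_of {Γ : Type} [Group Γ] (π : Γ →* (H ≃ₗᵢ[ℝ] H)) (g : Γ) (x : H) :
    rep π g (of x) = of (π g x) := map_of _ _

end Cx

/-! ### Direct sums -/

section sum
variable {H : ℕ → Type} [∀ k, NormedAddCommGroup (H k)] [∀ k, InnerProductSpace ℝ (H k)]

theorem mem_of_norm {f g : ∀ k, H k} (hf : Memℓp f 2) (h : ∀ k, ‖g k‖ = ‖f k‖) : Memℓp g 2 := by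
  rw [← memℓp_norm_iff] at hf ⊢
  simpa only [h] using hf

/-- direct sum of isometries -/
def smapFun (A : ∀ k, H k ≃ₗᵢ[ℝ] H k) (f : lp H 2) : lp H 2 :=
  ⟨fun k => A k (f k), mem_of_norm (lp.memℓp f) fun k => (A k).norm_map _⟩

theorem smapFun_apply (A : ∀ k, H k ≃ₗᵢ[ℝ] H k) (f : lp H 2) (k : ℕ) :
    smapFun A f k = A k (f k) := rfl

theorem smapFun_norm (A : ∀ k, H k ≃ₗᵢ[ℝ] H k) (f : lp H 2) : ‖smapFun A f‖ = ‖f‖ := by
  rw [lp.norm_eq_tsum_rpow (by norm_num), lp.norm_eq_tsum_rpow (by norm_num)]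
  simp only [smapFun_apply, LinearIsometryEquiv.norm_map]

/-- direct sum of isometries -/
def smap (A : ∀ k, H k ≃ₗᵢ[ℝ] H k) : lp H 2 ≃ₗᵢ[ℝ] lp H 2 where
  toFun := smapFun A
  map_add' f g := by
    ext k
    rw [smapFun_apply, lp.coeFn_add, lp.coeFn_add, Pi.add_apply, Pi.add_apply, map_add,
      smapFun_apply, smapFun_apply]
  map_smul' c f := by
    ext k
    rw [smapFun_apply, lp.coeFn_smul, lp.coeFn_smul, Pi.smul_apply, Pi.smul_apply, map_smul,
      smapFun_apply, RingHom.id_apply]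
  invFun := smapFun fun k => (A k).symm
  left_inv f := by
    ext k
    rw [smapFun_apply, smapFun_apply, LinearIsometryEquiv.symm_apply_apply]
  right_inv f := by
    ext k
    rw [smapFun_apply, smapFun_apply, LinearIsometryEquiv.apply_symm_apply]
  norm_map' f := smapFun_norm A f

theorem smap_apply (A : ∀ k, H k ≃ₗᵢ[ℝ] H k) (f : lp H 2) (k : ℕ) : smap A f k = A k (f k) := rfl

/-- direct sum of representations -/
def srep {Γ : Type} [Group Γ] (π : ∀ k, Γ →* (H k ≃ₗᵢ[ℝ] H k)) :
    Γ →* (lp H 2 ≃ₗᵢ[ℝ] lp H 2) where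
  toFun g := smap fun k => π k g
  map_one' := by
    apply LinearIsometryEquiv.ext
    intro f
    ext k
    rw [smap_apply, map_one]
    rfl
  map_mul' g h := by
    apply LinearIsometryEquiv.ext
    intro f
    ext k
    rw [smap_apply, map_mul]
    rfl

theorem srep_apply {Γ : Type} [Group Γ] (π : ∀ k, Γ →* (H k ≃ₗᵢ[ℝ] H k)) (g : Γ) (f : lp H 2)
    (k : ℕ) : srep π g f k = π k g (f k) := rfl

/-- the embedding of a summand -/
def sing (k : ℕ) : H k →L[ℝ] lp H 2 :=
  LinearMap.mkContinuous (lp.lsingle (𝕜 := ℝ) 2 k) 1 fun x => by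
    rw [one_mul]
    exact (lp.norm_single (p := 2) (by norm_num) k x).le

theorem sing_norm (k : ℕ) (x : H k) : ‖sing k x‖ = ‖x‖ :=
  lp.norm_single (p := 2) (by norm_num) k x

theorem sing_self (k : ℕ) (x : H k) : sing k x k = x := lp.single_apply_self 2 k x

theorem sing_ne {k j : ℕ} (h : j ≠ k) (x : H k) : sing k x j = 0 := lp.single_apply_ne 2 k x h

theorem srep_sing {Γ : Type} [Group Γ] (π : ∀ k, Γ →* (H k ≃ₗᵢ[ℝ] H k)) (g : Γ) (k : ℕ)
    (x : H k) : srep π g (sing k x) = sing k (π k g x) := by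
  ext j
  rw [srep_apply]
  by_cases h : j = k
  · subst h
    rw [sing_self, sing_self]
  · rw [sing_ne h, sing_ne h, map_zero]

end sum

end Vale.Agent.P284.H15.T
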