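import Vale.Agent.P284.H15.T.Gns2
import Vale.Agent.P284.H119.Kaz

/-!
# P284 (helper15), T3⁺: Delorme's theorem

An affine isometric action of a group with property (T) on a real Hilbert space has a fixed point.
-/

open scoped Topology InnerProductSpace
open Filter Set

noncomputable section

namespace Vale.Agent.P284.H15.Del

open Vale.Agent.P284.H119.Kaz

/-- the invariant vectors -/
def inv {G H : Type} [Group G] [NormedAddCommGroup H] [InnerProductSpace ℝ H]
    (π : G →* (H ≃ₗᵢ[ℝ] H)) : Submodule ℝ H where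
  carrier := {x | ∀ g, π g x = x}
  add_mem' := fun {x y} hx hy g => by rw [map_add, hx g, hy g]
  zero_mem' := fun g => map_zero _
  smul_mem' := fun c x hx g => by rw [map_smul, hx g]

theorem inv_closed {G H : Type} [Group G] [NormedAddCommGroup H] [InnerProductSpace ℝ H]
    (π : G →* (H ≃ₗᵢ[ℝ] H)) : IsClosed (inv π : Set H) := by
  have h1 : (inv π : Set H) = ⋂ g, {x | π g x = x} := by
    ext x
    simp only [mem_iInter]
    exact Iff.rfl
  rw [h1]
  exact isClosed_iInter fun g => isClosed_eq (π g).continuous continuous_id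

/-- **quantitative property (T)** -/
theorem quant {G : Type} [Group G] (hT : Kazhdan G) : ∃ (S : Finset G) (C : ℝ), 0 ≤ C ∧
    ∀ (H : Type) [NormedAddCommGroup H] [InnerProductSpace ℝ H] [CompleteSpace H]
      (π : G →* (H ≃ₗᵢ[ℝ] H)) (ξ : H) (δ : ℝ), 0 ≤ δ → (∀ s ∈ S, ‖π s ξ - ξ‖ ≤ δ) →
      ∀ g, ‖π g ξ - ξ‖ ≤ C * δ := by
  obtain ⟨S, ε, hε, hS⟩ := hT
  refine ⟨S, 2 / ε, by positivity, ?_⟩
  intro H _ _ _ π ξ δ hδ hs g
  have hcl : IsClosed (inv π : Set H) := inv_closed π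
  have hcomp : CompleteSpace (inv π) := hcl.completeSpace_coe
  set ξ₀ : H := (inv π).starProjection ξ with hξ₀
  set ξ' : H := ξ - ξ₀ with hξ'
  have hξ₀m : ξ₀ ∈ inv π := Submodule.starProjection_apply_mem _ _
  have hξ'm : ξ' ∈ (inv π)ᗮ := Submodule.sub_starProjection_mem_orthogonal _
  have hsub : ∀ g, π g ξ - ξ = π g ξ' - ξ' := by
    intro g
    rw [hξ', map_sub, hξ₀m g]
    abel
  -- the orthogonal complement is invariant
  have horth : ∀ g, ∀ x ∈ (inv π)ᗮ, π g x ∈ (inv π)ᗮ := by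
    intro g x hx
    rw [Submodule.mem_orthogonal] at hx ⊢
    intro y hy
    have h1 : ⟪y, π g x⟫_ℝ = ⟪π g y, π g x⟫_ℝ := by rw [hy g]
    rw [h1, (π g).inner_map_map]
    exact hx y hy
  have hbound : ‖ξ'‖ ≤ δ / ε := by
    by_contra hcon
    push Not at hcon
    have hpos : 0 < ‖ξ'‖ := lt_of_le_of_lt (by positivity) hcon
    have hinv1 : ∀ g x, π g⁻¹ (π g x) = x := fun g x => by
      have h1 : (π g⁻¹ * π g) x = x := by
        rw [← map_mul, inv_mul_cancel, map_one]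
        rfl
      exact h1
    have hinv2 : ∀ g x, π g (π g⁻¹ x) = x := fun g x => by
      have h1 : (π g * π g⁻¹) x = x := by
        rw [← map_mul, mul_inv_cancel, map_one]
        rfl
      exact h1
    let τ : G → ((inv π)ᗮ ≃ₗᵢ[ℝ] (inv π)ᗮ) := fun g =>
      { toLinearEquiv := LinearEquiv.ofLinearMap
          (LinearMap.restrict ((π g).toLinearEquiv : H →ₗ[ℝ] H) (horth g))
          (LinearMap.restrict ((π g⁻¹).toLinearEquiv : H →ₗ[ℝ] H) (horth g⁻¹))
          (LinearMap.ext fun x => Subtype.ext (hinv2 g x))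
          (LinearMap.ext fun x => Subtype.ext (hinv1 g x))
        norm_map' := fun x => (π g).norm_map x }
    let π' : G →* ((inv π)ᗮ ≃ₗᵢ[ℝ] (inv π)ᗮ) :=
      { toFun := τ
        map_one' := LinearIsometryEquiv.ext fun x => Subtype.ext (by
          show π 1 (x : H) = x
          rw [map_one]
          rfl)
        map_mul' := fun g h => LinearIsometryEquiv.ext fun x => Subtype.ext (by
          show π (g * h) (x : H) = π g (π h x)
          rw [map_mul]
          rfl) }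
    have hπ' : ∀ g x, ((π' g x : (inv π)ᗮ) : H) = π g x := fun g x => rfl
    set η : (inv π)ᗮ := (‖ξ'‖⁻¹ : ℝ) • (⟨ξ', hξ'm⟩ : (inv π)ᗮ) with hη
    have hη1 : ‖η‖ = 1 := by
      rw [hη, norm_smul, norm_inv, norm_norm]
      exact inv_mul_cancel₀ hpos.ne'
    obtain ⟨z, hz, hzi⟩ := hS _ π' η hη1 (by
      intro s hs'
      have h1 : π' s η - η = (‖ξ'‖⁻¹ : ℝ) • (π' s ⟨ξ', hξ'm⟩ - ⟨ξ', hξ'm⟩) := by
        rw [hη, map_smul, smul_sub]
      rw [h1, norm_smul, norm_inv, norm_norm]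
      have h2 : ‖π' s ⟨ξ', hξ'm⟩ - ⟨ξ', hξ'm⟩‖ = ‖π s ξ' - ξ'‖ := rfl
      rw [h2, ← hsub, inv_mul_le_iff₀ hpos]
      have h3 := hs s hs'
      rw [div_lt_iff₀ hε] at hcon
      exact h3.trans hcon.le)
    have h4 : (z : H) ∈ inv π := fun g => congrArg Subtype.val (hzi g)
    have h5 := (Submodule.mem_orthogonal _ _).1 z.2 z h4
    exact hz (Subtype.ext (inner_self_eq_zero.1 h5))
  rw [hsub]
  calc ‖π g ξ' - ξ'‖ ≤ ‖π g ξ'‖ + ‖ξ'‖ := norm_sub_le _ _
    _ = 2 * ‖ξ'‖ := by rw [(π g).norm_map]; ring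
    _ ≤ 2 * (δ / ε) := by linarith
    _ = 2 / ε * δ := by ring

section affine
variable {G : Type} [Group G] {W : Type} [NormedAddCommGroup W] [InnerProductSpace ℝ W]
  {π : G →* (W ≃ₗᵢ[ℝ] W)} {b : G → W}

/-- the affine action -/
def aff (π : G →* (W ≃ₗᵢ[ℝ] W)) (b : G → W) (hb : ∀ g h, b (g * h) = b g + π g (b h)) :
    G →* Equiv.Perm W where
  toFun g :=
    { toFun := fun w => π g w + b g
      invFun := fun w => π g⁻¹ w + b g⁻¹
      left_inv := fun w => by
        have h1 : (π g⁻¹ * π g) w = w := by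
          rw [← map_mul, inv_mul_cancel, map_one]
          rfl
        have h2 : π g⁻¹ (π g w) = w := h1
        have h3 : b (1 : G) = 0 := by
          have h4 := hb 1 1
          rw [mul_one, map_one] at h4
          exact left_eq_add.1 h4
        have h5 := hb g⁻¹ g
        rw [inv_mul_cancel, h3] at h5
        show π g⁻¹ (π g w + b g) + b g⁻¹ = w
        rw [map_add, h2, add_assoc, add_comm (π g⁻¹ (b g)), ← h5, add_zero]
      right_inv := fun w => by
        have h1 : (π g * π g⁻¹) w = w := by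
          rw [← map_mul, mul_inv_cancel, map_one]
          rfl
        have h2 : π g (π g⁻¹ w) = w := h1
        have h3 : b (1 : G) = 0 := by
          have h4 := hb 1 1
          rw [mul_one, map_one] at h4
          exact left_eq_add.1 h4
        have h5 := hb g g⁻¹
        rw [mul_inv_cancel, h3] at h5
        show π g (π g⁻¹ w + b g⁻¹) + b g = w
        rw [map_add, h2, add_assoc, add_comm (π g (b g⁻¹)), ← h5, add_zero] }
  map_one' := by
    refine Equiv.ext fun w => ?_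
    show π 1 w + b 1 = w
    have h3 : b (1 : G) = 0 := by
      have h4 := hb 1 1
      rw [mul_one, map_one] at h4
      exact left_eq_add.1 h4
    rw [map_one, h3, add_zero]
    rfl
  map_mul' g h := by
    refine Equiv.ext fun w => ?_
    show π (g * h) w + b (g * h) = π g (π h w + b h) + b g
    rw [map_mul, hb, map_add]
    have h1 : (π g * π h) w = π g (π h w) := rfl
    rw [h1]
    abel

lemma aff_apply (hb : ∀ g h, b (g * h) = b g + π g (b h)) (g : G) (w : W) :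
    aff π b hb g w = π g w + b g := rfl

lemma aff_dist (hb : ∀ g h, b (g * h) = b g + π g (b h)) (g : G) (w w' : W) :
    ‖aff π b hb g w - aff π b hb g w'‖ = ‖w - w'‖ := by
  rw [aff_apply, aff_apply, add_sub_add_right_eq_sub, ← map_sub, (π g).norm_map]

/-- cocycles of a Kazhdan group are bounded -/
theorem bdd (hT : Kazhdan G) (π : G →* (W ≃ₗᵢ[ℝ] W)) (b : G → W)
    (hb : ∀ g h, b (g * h) = b g + π g (b h)) : ∃ M : ℝ, ∀ g, ‖b g‖ ≤ M := by
  obtain ⟨S, C, hC, hquant⟩ := quant hT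
  -- the generators
  obtain ⟨B, hB0, hB⟩ : ∃ B : ℝ, 0 ≤ B ∧ ∀ s ∈ S, ‖b s‖ ≤ B := by
    refine ⟨∑ s ∈ S, ‖b s‖, Finset.sum_nonneg fun _ _ => norm_nonneg _, fun s hs => ?_⟩
    exact Finset.single_le_sum (f := fun s => ‖b s‖) (fun _ _ => norm_nonneg _) hs
  -- choose the parameter
  set A : ℝ := C ^ 2 * (2 * B ^ 2) with hA
  have hA0 : 0 ≤ A := by positivity
  set t : ℝ := 1 / (A + 1) with ht
  have ht0 : 0 < t := by positivity
  obtain ⟨H, i1, i2, i3, e, ρ, he, hρ⟩ := exists_gns (psd_gauss (E := W) ht0.le) (aff π b hb)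
    (fun g i j => by
      show Real.exp (-t * ‖aff π b hb g i - aff π b hb g j‖ ^ 2) = Real.exp (-t * ‖i - j‖ ^ 2)
      rw [aff_dist])
  have he' : ∀ x y : W, ⟪e x, e y⟫_ℝ = Real.exp (-t * ‖x - y‖ ^ 2) := he
  have hdist : ∀ g, ‖ρ g (e 0) - e 0‖ ^ 2 = 2 * (1 - Real.exp (-t * ‖b g‖ ^ 2)) := by
    intro g
    rw [hρ, aff_apply, map_zero, zero_add, norm_sub_sq_real, ← real_inner_self_eq_norm_sq,
      ← real_inner_self_eq_norm_sq, he', he', he', sub_self, sub_self, sub_zero, norm_zero]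
    simp
    ring
  set δ : ℝ := Real.sqrt (2 * (t * B ^ 2)) with hδ
  have hδ2 : δ ^ 2 = 2 * (t * B ^ 2) := Real.sq_sqrt (by positivity)
  have hs : ∀ s ∈ S, ‖ρ s (e 0) - e 0‖ ≤ δ := by
    intro s hs
    refine Real.le_sqrt_of_sq_le ?_
    rw [hdist]
    have h1 := Real.add_one_le_exp (-t * ‖b s‖ ^ 2)
    have h2 : ‖b s‖ ^ 2 ≤ B ^ 2 := pow_le_pow_left₀ (norm_nonneg _) (hB s hs) 2
    have h3 : t * ‖b s‖ ^ 2 ≤ t * B ^ 2 := mul_le_mul_of_nonneg_left h2 ht0.le
    nlinarith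
  have hall := hquant H ρ (e 0) δ (Real.sqrt_nonneg _) hs
  refine ⟨Real.sqrt (A + 1), fun g => Real.le_sqrt_of_sq_le ?_⟩
  have h1 : ‖ρ g (e 0) - e 0‖ ^ 2 ≤ (C * δ) ^ 2 := pow_le_pow_left₀ (norm_nonneg _) (hall g) 2
  rw [hdist, mul_pow, hδ2] at h1
  have h2 : C ^ 2 * (2 * (t * B ^ 2)) = A * t := by
    rw [hA]
    ring
  have h3 : A * t ≤ 1 := by
    rw [ht, mul_one_div, div_le_one (by positivity)]
    linarith
  have h4 : (1 : ℝ) / 2 ≤ Real.exp (-t * ‖b g‖ ^ 2) := by linarith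
  have h5 := Real.add_one_le_exp (t * ‖b g‖ ^ 2)
  have h6 : Real.exp (-t * ‖b g‖ ^ 2) * Real.exp (t * ‖b g‖ ^ 2) = 1 := by
    rw [← Real.exp_add]
    simp
  have h7 : t * ‖b g‖ ^ 2 ≤ 1 := by
    have h8 : (1 : ℝ) / 2 * Real.exp (t * ‖b g‖ ^ 2) ≤ 1 :=
      (mul_le_mul_of_nonneg_right h4 (Real.exp_pos _).le).trans h6.le
    linarith
  have h8 : t * (A + 1) = 1 := by
    rw [ht]
    field_simp
  exact le_of_mul_le_mul_left (h7.trans h8.ge) ht0

/-- an affine isometric action with a bounded orbit has a fixed point -/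
theorem fix_of_bdd [CompleteSpace W] (hb : ∀ g h, b (g * h) = b g + π g (b h)) {M : ℝ}
    (hM : ∀ g, ‖b g‖ ≤ M) : ∃ w, ∀ g, π g w + b g = w := by
  set R : Set ℝ := {a | 0 ≤ a ∧ ∃ w, ∀ g, ‖w - b g‖ ≤ a} with hR
  have hRne : R.Nonempty := ⟨M, (norm_nonneg _).trans (hM 1), 0, fun g => by
    rw [zero_sub, norm_neg]
    exact hM g⟩
  have hRbd : BddBelow R := ⟨0, fun a ha => ha.1⟩
  set ρ : ℝ := sInf R with hρ
  have hρ0 : 0 ≤ ρ := le_csInf hRne fun a ha => ha.1
  -- uniform convexity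
  have key : ∀ a a' : ℝ, ∀ w w' : W, (∀ g, ‖w - b g‖ ≤ a) → (∀ g, ‖w' - b g‖ ≤ a') →
      ‖w - w'‖ ^ 2 ≤ 2 * a ^ 2 + 2 * a' ^ 2 - 4 * ρ ^ 2 := by
    intro a a' w w' h h'
    set X : ℝ := (a ^ 2 + a' ^ 2) / 2 - ‖w - w'‖ ^ 2 / 4 with hX
    have h1 : ∀ g, ‖(1 / 2 : ℝ) • (w + w') - b g‖ ^ 2 ≤ X := by
      intro g
      have h2 : (1 / 2 : ℝ) • (w + w') - b g = (1 / 2 : ℝ) • ((w - b g) + (w' - b g)) := by
        have h3 : b g = (1 / 2 : ℝ) • (b g + b g) := by
          rw [← two_smul ℝ (b g), smul_smul]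
          norm_num
        conv_lhs => rw [h3]
        rw [← smul_sub]
        congr 1
        abel
      have h4 := parallelogram_law_with_norm ℝ (w - b g) (w' - b g)
      have h5 : w - b g - (w' - b g) = w - w' := by abel
      rw [h5] at h4
      rw [h2, norm_smul, mul_pow]
      have h6 : ‖(1 / 2 : ℝ)‖ ^ 2 = 1 / 4 := by
        rw [Real.norm_of_nonneg (by norm_num)]
        norm_num
      have h7 : ‖w - b g‖ ^ 2 ≤ a ^ 2 := pow_le_pow_left₀ (norm_nonneg _) (h g) 2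
      have h8 : ‖w' - b g‖ ^ 2 ≤ a' ^ 2 := pow_le_pow_left₀ (norm_nonneg _) (h' g) 2
      rw [h6, hX]
      nlinarith
    have hX0 : 0 ≤ X := (sq_nonneg _).trans (h1 1)
    have h2 : ρ ≤ Real.sqrt X := csInf_le hRbd ⟨Real.sqrt_nonneg _, _, fun g =>
      Real.le_sqrt_of_sq_le (h1 g)⟩
    have h3 : ρ ^ 2 ≤ X := by
      rw [← Real.sq_sqrt hX0]
      exact pow_le_pow_left₀ hρ0 h2 2
    rw [hX] at h3
    linarith
  -- a minimising sequence
  have hseq : ∀ n : ℕ, ∃ w, ∀ g, ‖w - b g‖ ≤ ρ + 1 / ((n : ℝ) + 1) := by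
    intro n
    obtain ⟨a, ⟨-, w, hw⟩, ha⟩ := exists_lt_of_csInf_lt hRne
      (lt_add_of_pos_right ρ (show (0 : ℝ) < 1 / ((n : ℝ) + 1) by positivity))
    exact ⟨w, fun g => (hw g).trans ha.le⟩
  choose w hw using hseq
  have hlim : Tendsto (fun n : ℕ => 1 / ((n : ℝ) + 1)) atTop (𝓝 0) :=
    tendsto_one_div_add_atTop_nhds_zero_nat
  have hcau : CauchySeq w := by
    refine cauchySeq_of_le_tendsto_0
      (fun N : ℕ => Real.sqrt (4 * (ρ + 1 / ((N : ℝ) + 1)) ^ 2 - 4 * ρ ^ 2)) ?_ ?_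
    · intro n m N hn hm
      rw [dist_eq_norm]
      refine Real.le_sqrt_of_sq_le ?_
      have h1 : ∀ k : ℕ, N ≤ k → ∀ g, ‖w k - b g‖ ≤ ρ + 1 / ((N : ℝ) + 1) := by
        intro k hk g
        refine (hw k g).trans ?_
        have h2 : (N : ℝ) ≤ k := by exact_mod_cast hk
        have h3 : 1 / ((k : ℝ) + 1) ≤ 1 / ((N : ℝ) + 1) :=
          one_div_le_one_div_of_le (by positivity) (by linarith)
        linarith
      have h2 := key _ _ _ _ (h1 n hn) (h1 m hm)
      linarith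
    · have h1 : Tendsto (fun N : ℕ => Real.sqrt (4 * (ρ + 1 / ((N : ℝ) + 1)) ^ 2 - 4 * ρ ^ 2)) atTop
          (𝓝 (Real.sqrt (4 * (ρ + 0) ^ 2 - 4 * ρ ^ 2))) :=
        (Real.continuous_sqrt.tendsto _).comp
          (((((tendsto_const_nhds.add hlim).pow 2).const_mul 4)).sub_const _)
      simpa using h1
  obtain ⟨w₀, hw₀⟩ := cauchySeq_tendsto_of_complete hcau
  have hmin : ∀ g, ‖w₀ - b g‖ ≤ ρ := by
    intro g
    have h1 : Tendsto (fun n => ‖w n - b g‖) atTop (𝓝 ‖w₀ - b g‖) :=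
      (hw₀.sub_const _).norm
    have h2 : Tendsto (fun n : ℕ => ρ + 1 / ((n : ℝ) + 1)) atTop (𝓝 (ρ + 0)) :=
      tendsto_const_nhds.add hlim
    rw [add_zero] at h2
    exact le_of_tendsto_of_tendsto' h1 h2 fun n => hw n g
  refine ⟨w₀, fun h => ?_⟩
  have h1 : ∀ g, ‖(π h w₀ + b h) - b g‖ ≤ ρ := by
    intro g
    have h2 : b g = π h (b (h⁻¹ * g)) + b h := by
      have h3 := hb h (h⁻¹ * g)
      rw [mul_inv_cancel_left] at h3
      rw [h3, add_comm]
    rw [h2, add_sub_add_right_eq_sub, ← map_sub, (π h).norm_map]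
    exact hmin _
  have h2 := key _ _ _ _ h1 hmin
  have h3 : ‖(π h w₀ + b h) - w₀‖ ^ 2 ≤ 0 := by linarith
  have h4 : ‖(π h w₀ + b h) - w₀‖ = 0 := by
    have := sq_nonneg ‖(π h w₀ + b h) - w₀‖
    exact pow_eq_zero_iff (two_ne_zero) |>.1 (le_antisymm h3 this)
  exact sub_eq_zero.1 (norm_eq_zero.1 h4)

/-- **Delorme's theorem**: an affine isometric action of a group with property (T) has a fixed point. -/
theorem delorme [CompleteSpace W] (hT : Kazhdan G) (π : G →* (W ≃ₗᵢ[ℝ] W)) (b : G → W)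
    (hb : ∀ g h, b (g * h) = b g + π g (b h)) : ∃ w, ∀ g, π g w + b g = w := by
  obtain ⟨M, hM⟩ := bdd hT π b hb
  exact fix_of_bdd hb hM

end affine

/-- the underlying real representation -/
def toReal {G W : Type} [Group G] [NormedAddCommGroup W] [InnerProductSpace ℂ W]
    (π : G →* (W ≃ₗᵢ[ℂ] W)) : G →* (W ≃ₗᵢ[ℝ] W) where
  toFun g := { toLinearEquiv := (π g).toLinearEquiv.restrictScalars ℝ
               norm_map' := fun x => (π g).norm_map x }
  map_one' := LinearIsometryEquiv.ext fun x => by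
    show π 1 x = x
    rw [map_one]
    rfl
  map_mul' g h := LinearIsometryEquiv.ext fun x => by
    show π (g * h) x = π g (π h x)
    rw [map_mul]
    rfl

/-- **Delorme's theorem**, complex Hilbert spaces -/
theorem delormeC {G : Type} [Group G] (hT : Kazhdan G) {W : Type} [NormedAddCommGroup W]
    [InnerProductSpace ℂ W] [CompleteSpace W] (π : G →* (W ≃ₗᵢ[ℂ] W)) (b : G → W)
    (hb : ∀ g h, b (g * h) = b g + π g (b h)) : ∃ w, ∀ g, π g w + b g = w := by
  let i1 : InnerProductSpace ℝ W := InnerProductSpace.complexToReal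
  exact delorme hT (toReal π) b hb

end Vale.Agent.P284.H15.Del
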