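import Vale.Agent.P284.H15.T.FibZ
import Vale.Agent.P284.H366.J.Pot

/-!
# P284 (helper15), T3⁺: potentials `G + J G + c₀` with an affine action through a Kazhdan group
-/

open scoped Manifold ContDiff Topology InnerProductSpace ComplexConjugate Pointwise
open Filter Set Metric

noncomputable section

namespace Vale.Agent.P284.H15.Del

open Vale.Agent.P272.K Vale.Agent.P284.H894.G Vale.Agent.P284.H894.V Vale.Agent.P284.H894.W
  Vale.Agent.P284.H213.Grp Vale.Agent.P284.H619 Vale.Agent.P284.H119.Kaz Vale.Agent.P284.H366.J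

section
variable {n q : ℕ} {X : Type} [TopologicalSpace X] [ChartedSpace (Cm n) X]
  {E : Type} [TopologicalSpace E] {p : E → X} {F : E → Cm q} {t : Cm q}
  {W : Type} [NormedAddCommGroup W] [InnerProductSpace ℂ W]
  {Θ : E → Chart n X → (Cm n →L[ℂ] W)} {u : E → W}

/-- local primitives of `Θ` along the fibre -/
def Prim (p : E → X) (F : E → Cm q) (t : Cm q) (Θ : E → Chart n X → (Cm n →L[ℂ] W)) : Prop :=
  ∀ y e, F y = t → At e (p y) → ∃ G : Cm n → W, AnalyticAt ℂ G (e (p y)) ∧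
    ∀ᶠ y' in 𝓝 y, F y' = t → ∀ ξ ∈ VS p F y' e, fderiv ℂ G (e (p y')) ξ = Θ y' e ξ

/-- `u` is continuous along the fibre -/
theorem cont_of_potJ (hp : IsCoveringMap p) {J : W →SL[starRingEnd ℂ] W} (hprim : Prim p F t Θ)
    (hu : VPotJ n p F t J Θ u) : ContinuousOn u (F ⁻¹' {t}) := by
  intro y hy
  have he : At (chartAt (Cm n) (p y)) (p y) := ⟨chart_mem_atlas _ _, mem_chart_source _ _⟩
  set e := chartAt (Cm n) (p y) with he_def
  obtain ⟨G, hG, hGd⟩ := hprim y e hy he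
  obtain ⟨c₀, hc₀⟩ := hu y e G hy he hG hGd
  have h1 : ContinuousAt (fun y' => G (e (p y'))) y :=
    ContinuousAt.comp (f := fun y' => e (p y')) hG.continuousAt (tendsto_ep hp he)
  have h2 : ContinuousAt (fun y' => G (e (p y')) + J (G (e (p y'))) + c₀) y :=
    (h1.add (J.continuous.continuousAt.comp h1)).add continuousAt_const
  refine (h2.continuousWithinAt (s := F ⁻¹' {t})).congr_of_eventuallyEq ?_ ?_
  · rw [Filter.EventuallyEq, eventually_nhdsWithin_iff]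
    filter_upwards [hc₀] with y' h3 h4 using h3 h4
  · exact hc₀.self_of_nhds hy

/-- **Kazhdan quotients**, for potentials `G + J G + c₀` -/
theorem kaz_zeroJ {Γ : Type} [Group Γ] [MulAction Γ E] (hp : IsCoveringMap p) (hF : HolE n p F)
    {K : Subgroup Γ} (hF0 : ∀ k ∈ K, ∀ y, F (k • y) = F y) (hcon : IsConnected (F ⁻¹' {t}))
    (hreg : ∀ y, F y = t → Reg (n := n) p F y) [CompleteSpace W] {π : Γ →* (W ≃ₗᵢ[ℂ] W)}
    {J : W →SL[starRingEnd ℂ] W} (hprim : Prim p F t Θ) (hu : VPotJ n p F t J Θ u)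
    (hΘ : VPot p F t W Θ u) (hE : ∀ k ∈ K, ∃ b : W, ∀ y, F y = t → u (k • y) = π k (u y) + b)
    (hcpt : ∃ D : Set E, IsCompact D ∧ ∀ y : E, F y = t → ∃ k ∈ K, k • y ∈ D)
    {N : Subgroup K} [N.Normal] (hT : Kazhdan (K ⧸ N)) (hN : ∀ k ∈ N, π (k : Γ) = 1)
    (hN' : ∀ k ∈ N, ∀ y, F y = t → u ((k : Γ) • y) = u y) :
    (∃ M, ∀ y, F y = t → u y = M) ∧
      ∀ y e, F y = t → At e (p y) → ∀ ξ ∈ VS p F y e, Θ y e ξ = 0 :=
  kaz_zero hp hF hF0 hcon hreg hΘ hE (cont_of_potJ hp hprim hu) hcpt hT hN hN'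

end

end Vale.Agent.P284.H15.Del
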