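import Vale.Agent.P284.H619.NulP
import Vale.Agent.P284.H15.T.Del

/-!
# P284 (helper15), T3⁺: on a connected regular fibre with a cocompact group of symmetries, a potential the
affine action of which has a fixed point is constant
-/

open scoped Manifold ContDiff Topology InnerProductSpace ComplexConjugate Pointwise
open Filter Set Metric

noncomputable section

namespace Vale.Agent.P284.H15.Del

open Vale.Agent.P272.K Vale.Agent.P284.H894.G Vale.Agent.P284.H894.V Vale.Agent.P284.H894.W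
  Vale.Agent.P284.H213.Grp Vale.Agent.P284.H619 Vale.Agent.P284.H119.Kaz

section
variable {n q : ℕ} {X : Type} [TopologicalSpace X] [ChartedSpace (Cm n) X]
  {E : Type} [TopologicalSpace E] {p : E → X} {F : E → Cm q} {t : Cm q}

/-- maximum principle on a connected regular fibre -/
theorem re_const_max (hp : IsCoveringMap p) (hF : HolE n p F) (hc : IsPreconnected (F ⁻¹' {t}))
    (hreg : ∀ y, F y = t → Reg (n := n) p F y) {m : E → ℝ}
    (hm : ∀ (y : E) (e : Chart n X), F y = t → At e (p y) → ∃ G : Cm n → ℂ,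
      AnalyticAt ℂ G (e (p y)) ∧ ∀ᶠ y' in 𝓝 y, F y' = t → m y' = (G (e (p y'))).re)
    {yM : E} (hyM : F yM = t) (hle : ∀ y, F y = t → m y ≤ m yM) :
    ∀ y, F y = t → m y = m yM := by
  have hch : ∀ y : E, At (chartAt (Cm n) (p y)) (p y) := fun y =>
    ⟨chart_mem_atlas _ _, mem_chart_source _ _⟩
  refine fib_ind (P := fun y => m y = m yM) hc ?_ hyM rfl
  intro y₁ hy₁
  have he := hch y₁
  set e := chartAt (Cm n) (p y₁) with he_def
  obtain ⟨G, hG, hev⟩ := hm y₁ e hy₁ he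
  by_cases h1 : m y₁ = m yM
  · obtain ⟨f, ψ, φ, ε, hpar⟩ := exists_Par hp hF hy₁ he (hreg y₁ hy₁)
    have h0 : AnalyticAt ℂ ψ 0 := hpar.an 0 (mem_ball_self hpar.pos)
    have h2 : ∀ᶠ u in 𝓝 (0 : Cm n), (G (ψ u)).re ≤ m yM := by
      refine hpar.germ0 hp hy₁ (Q := fun z => (G z).re ≤ m yM) ?_
      filter_upwards [hev] with y' k1 k2
      rw [← k1 k2]
      exact hle y' k2
    have h3 : (G (ψ 0)).re = m yM := by
      rw [hpar.ψ0, ← hev.self_of_nhds hy₁, h1]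
    have hGψ : AnalyticAt ℂ (fun u => G (ψ u)) 0 :=
      AnalyticAt.fun_comp (by rw [hpar.ψ0]; exact hG) h0
    have h4 : ∀ᶠ u in 𝓝 (0 : Cm n), Complex.exp (G (ψ u)) = Complex.exp (G (ψ 0)) := by
      refine Complex.eventually_eq_of_isLocalMax_norm (f := fun u => Complex.exp (G (ψ u))) ?_ ?_
      · filter_upwards [hGψ.eventually_analyticAt] with u hu
        exact hu.differentiableAt.cexp
      · filter_upwards [h2] with u hu
        show ‖Complex.exp (G (ψ u))‖ ≤ ‖Complex.exp (G (ψ 0))‖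
        rw [Complex.norm_exp, Complex.norm_exp, h3]
        exact Real.exp_le_exp.2 hu
    have h5 : ∀ᶠ u in 𝓝 (0 : Cm n), (G (ψ u)).re = m yM := by
      filter_upwards [h4] with u hu
      have := congrArg (fun z : ℂ => ‖z‖) hu
      simp only [Complex.norm_exp, h3] at this
      exact Real.exp_injective this
    filter_upwards [hpar.back hp (Q := fun z => (G z).re = m yM) h5, hev] with y k1 k2 k3
    exact ⟨fun _ => by rw [k2 k3, k1 k3], fun _ => h1⟩
  · have h2 : (G (e (p y₁))).re < m yM := by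
      rw [← hev.self_of_nhds hy₁]
      exact lt_of_le_of_ne (hle y₁ hy₁) h1
    have h3 : ContinuousAt (fun y' => (G (e (p y'))).re) y₁ :=
      Complex.continuous_re.continuousAt.comp
        (ContinuousAt.comp (f := fun y' => e (p y')) hG.continuousAt (tendsto_ep hp he))
    filter_upwards [hev, h3.eventually_lt_const h2] with y k1 k2 k3
    refine ⟨fun h => absurd h h1, fun h => ?_⟩
    rw [k1 k3] at h
    exact absurd h k2.ne

variable {W : Type} [NormedAddCommGroup W] [InnerProductSpace ℂ W]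
  {Θ : E → Chart n X → (Cm n →L[ℂ] W)} {u : E → W}

/-- a constant potential: `Θ = 0` -/
theorem theta_zero_of_const (hp : IsCoveringMap p) (hF : HolE n p F)
    (hreg : ∀ y, F y = t → Reg (n := n) p F y) (hΘ : VPot p F t W Θ u) {M : W}
    (hM : ∀ y, F y = t → u y = M) :
    ∀ y e, F y = t → At e (p y) → ∀ ξ ∈ VS p F y e, Θ y e ξ = 0 := by
  intro y₁ e₁ hy₁ he₁ ξ hξ
  set v : W := Θ y₁ e₁ ξ with hv
  obtain ⟨g, h, hg, hh, hev⟩ := hΘ.pot y₁ e₁ hy₁ he₁ v
  obtain ⟨f, ψ, φ, ε, hpar⟩ := exists_Par hp hF hy₁ he₁ (hreg y₁ hy₁)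
  have h0 : AnalyticAt ℂ ψ 0 := hpar.an 0 (mem_ball_self hpar.pos)
  have h1 : ∀ᶠ z in 𝓝 (0 : Cm n), g (ψ z) + conj (h (ψ z)) = ⟪v, M⟫_ℂ := by
    refine hpar.germ0 hp hy₁ (Q := fun z => g z + conj (h z) = ⟪v, M⟫_ℂ) ?_
    filter_upwards [hev] with y' k1 k2
    rw [← (k1 k2).1, hM y' k2]
  have hgψ : AnalyticAt ℂ (fun z => g (ψ z)) 0 :=
    AnalyticAt.fun_comp (by rw [hpar.ψ0]; exact hg) h0
  have hhψ : AnalyticAt ℂ (fun z => h (ψ z)) 0 :=
    AnalyticAt.fun_comp (by rw [hpar.ψ0]; exact hh) h0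
  have h2 : ∀ η, fderiv ℂ (fun z => g (ψ z)) 0 η = 0 := by
    have d1 := hgψ.differentiableAt.hasFDerivAt.restrictScalars ℝ
    have d2 := hhψ.differentiableAt.hasFDerivAt.restrictScalars ℝ
    have d3 : HasFDerivAt (fun z => g (ψ z) + conj (h (ψ z)))
        ((fderiv ℂ (fun z => g (ψ z)) 0).restrictScalars ℝ +
          (Complex.conjCLE : ℂ →L[ℝ] ℂ).comp ((fderiv ℂ (fun z => h (ψ z)) 0).restrictScalars ℝ))
        0 := d1.add ((Complex.conjCLE : ℂ →L[ℝ] ℂ).hasFDerivAt.comp (0 : Cm n) d2)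
    have d4 : HasFDerivAt (fun z => g (ψ z) + conj (h (ψ z))) (0 : Cm n →L[ℝ] ℂ) 0 :=
      (hasFDerivAt_const ⟪v, M⟫_ℂ (0 : Cm n)).congr_of_eventuallyEq h1
    have d5 := d3.unique d4
    intro η
    have e1 := DFunLike.congr_fun d5 η
    have e2 := DFunLike.congr_fun d5 (Complex.I • η)
    have e1' : fderiv ℂ (fun z => g (ψ z)) 0 η + conj (fderiv ℂ (fun z => h (ψ z)) 0 η) = 0 := e1
    have e2' : fderiv ℂ (fun z => g (ψ z)) 0 (Complex.I • η) +
        conj (fderiv ℂ (fun z => h (ψ z)) 0 (Complex.I • η)) = 0 := e2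
    rw [map_smul, map_smul, smul_eq_mul, smul_eq_mul, map_mul, Complex.conj_I] at e2'
    have e3 : Complex.I * (fderiv ℂ (fun z => g (ψ z)) 0 η -
        conj (fderiv ℂ (fun z => h (ψ z)) 0 η)) = 0 := by
      rw [mul_sub, ← e2']; ring
    have e4 := (mul_eq_zero.1 e3).resolve_left Complex.I_ne_zero
    have e5 : 2 * fderiv ℂ (fun z => g (ψ z)) 0 η = 0 := by
      linear_combination e1' + e4
    exact (mul_eq_zero.1 e5).resolve_left two_ne_zero
  obtain ⟨-, -, hv3⟩ := hpar.near.self_of_nhds hy₁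
  rw [hpar.φ0] at hv3
  have h3 := (hev.self_of_nhds hy₁).2 ξ hξ
  have h4 : fderiv ℂ g (e₁ (p y₁)) ξ = 0 := by
    have h5 : HasFDerivAt (fun z => g (ψ z)) ((fderiv ℂ g (e₁ (p y₁))).comp (fderiv ℂ ψ 0)) 0 := by
      refine HasFDerivAt.comp (0 : Cm n) (g := g) (f := ψ) ?_ h0.differentiableAt.hasFDerivAt
      rw [hpar.ψ0]
      exact hg.differentiableAt.hasFDerivAt
    have h6 := h2 (fderiv ℂ φ (e₁ (p y₁)) ξ)
    rw [h5.fderiv, ContinuousLinearMap.comp_apply, hv3 ξ hξ] at h6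
    exact h6
  rw [h4] at h3
  exact inner_self_eq_zero.1 h3.symm

/-- **a potential with a fixed point is constant**, `Θ = 0` on the fibre -/
theorem fib_zero (hp : IsCoveringMap p) (hF : HolE n p F) (hcon : IsConnected (F ⁻¹' {t}))
    (hreg : ∀ y, F y = t → Reg (n := n) p F y) (hΘ : VPot p F t W Θ u)
    (hcont : ContinuousOn u (F ⁻¹' {t})) {D : Set E} (hD : IsCompact D) {w : W}
    (hcov : ∀ y, F y = t → ∃ y' ∈ D, F y' = t ∧ ‖u y' - w‖ = ‖u y - w‖) :
    (∃ M, ∀ y, F y = t → u y = M) ∧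
      ∀ y e, F y = t → At e (p y) → ∀ ξ ∈ VS p F y e, Θ y e ξ = 0 := by
  have hclosed : IsClosed (F ⁻¹' {t}) := isClosed_singleton.preimage (hF.continuous hp)
  have hDc : IsCompact (D ∩ F ⁻¹' {t}) := hD.inter_right hclosed
  have hcont' : ContinuousOn (fun y => ‖u y - w‖) (D ∩ F ⁻¹' {t}) :=
    ((hcont.mono inter_subset_right).sub continuousOn_const).norm
  obtain ⟨y₀, hy₀⟩ := hcon.nonempty
  obtain ⟨y₀', hy₀D, hy₀t, -⟩ := hcov y₀ hy₀
  obtain ⟨yM, hyM, hmax⟩ := hDc.exists_isMaxOn ⟨y₀', hy₀D, hy₀t⟩ hcont'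
  have hle : ∀ y, F y = t → ‖u y - w‖ ≤ ‖u yM - w‖ := by
    intro y hy
    obtain ⟨y', h1, h2, h3⟩ := hcov y hy
    rw [← h3]
    exact hmax ⟨h1, h2⟩
  have hyMt : F yM = t := hyM.2
  set a : W := u yM - w with ha
  have hconst : ∀ y, F y = t → (⟪a, u y⟫_ℂ).re = (⟪a, u yM⟫_ℂ).re := by
    refine re_const_max hp hF hcon.isPreconnected hreg (m := fun y => (⟪a, u y⟫_ℂ).re)
      (fun y e hy he => ?_) hyMt (fun y hy => ?_)
    · obtain ⟨g, h, hg, hh, hev⟩ := hΘ.pot y e hy he a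
      refine ⟨fun z => g z + h z, hg.add hh, ?_⟩
      filter_upwards [hev] with y' k1 k2
      rw [(k1 k2).1, Complex.add_re, Complex.add_re, Complex.conj_re]
    · have h1 : (⟪a, u y - w⟫_ℂ).re ≤ ‖a‖ * ‖u y - w‖ :=
        re_inner_le_norm (𝕜 := ℂ) a (u y - w)
      have h2 : (⟪a, u yM - w⟫_ℂ).re = ‖a‖ * ‖a‖ := by
        rw [← ha]
        have := inner_self_eq_norm_mul_norm (𝕜 := ℂ) a
        exact this
      have h3 : ‖a‖ * ‖u y - w‖ ≤ ‖a‖ * ‖a‖ := mul_le_mul_of_nonneg_left (hle y hy) (norm_nonneg _)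
      have h4 : (⟪a, u y - w⟫_ℂ).re ≤ (⟪a, u yM - w⟫_ℂ).re := by
        rw [h2]
        exact h1.trans h3
      rw [inner_sub_right, inner_sub_right, Complex.sub_re, Complex.sub_re] at h4
      linarith
  have hu : ∀ y, F y = t → u y = u yM := by
    intro y hy
    have h1 : (⟪a, u y - w⟫_ℂ).re = ‖a‖ ^ 2 := by
      have h2 : (⟪a, u yM - w⟫_ℂ).re = ‖a‖ * ‖a‖ := by
        rw [← ha]
        exact inner_self_eq_norm_mul_norm (𝕜 := ℂ) a
      rw [inner_sub_right, Complex.sub_re, hconst y hy, ← Complex.sub_re, ← inner_sub_right, h2, sq]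
    have h3 : ‖(u y - w) - a‖ ^ 2 ≤ 0 := by
      have h4 := norm_sub_sq (𝕜 := ℂ) (u y - w) a
      have h5 : RCLike.re ⟪u y - w, a⟫_ℂ = ‖a‖ ^ 2 := by
        rw [← h1, ← inner_conj_symm]
        exact Complex.conj_re _
      rw [h5] at h4
      rw [h4]
      have h6 : ‖u y - w‖ ^ 2 ≤ ‖a‖ ^ 2 := pow_le_pow_left₀ (norm_nonneg _) (hle y hy) 2
      linarith
    have h7 : ‖(u y - w) - a‖ = 0 := by
      have := sq_nonneg ‖(u y - w) - a‖
      exact (pow_eq_zero_iff two_ne_zero).1 (le_antisymm h3 this)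
    have h8 := sub_eq_zero.1 (norm_eq_zero.1 h7)
    rw [ha] at h8
    exact sub_left_injective h8
  exact ⟨⟨u yM, hu⟩, theta_zero_of_const hp hF hreg hΘ hu⟩

/-- **Kazhdan quotients**: if `K/N` has property (T), and the normal subgroup `N` acts trivially on the
potential, then the potential is constant on the fibre. -/
theorem kaz_zero {Γ : Type} [Group Γ] [MulAction Γ E] (hp : IsCoveringMap p) (hF : HolE n p F)
    {K : Subgroup Γ} (hF0 : ∀ k ∈ K, ∀ y, F (k • y) = F y) (hcon : IsConnected (F ⁻¹' {t}))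
    (hreg : ∀ y, F y = t → Reg (n := n) p F y) [CompleteSpace W] {π : Γ →* (W ≃ₗᵢ[ℂ] W)}
    (hΘ : VPot p F t W Θ u) (hE : ∀ k ∈ K, ∃ b : W, ∀ y, F y = t → u (k • y) = π k (u y) + b)
    (hcont : ContinuousOn u (F ⁻¹' {t}))
    (hcpt : ∃ D : Set E, IsCompact D ∧ ∀ y : E, F y = t → ∃ k ∈ K, k • y ∈ D)
    {N : Subgroup K} [N.Normal] (hT : Kazhdan (K ⧸ N)) (hN : ∀ k ∈ N, π (k : Γ) = 1)
    (hN' : ∀ k ∈ N, ∀ y, F y = t → u ((k : Γ) • y) = u y) :
    (∃ M, ∀ y, F y = t → u y = M) ∧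
      ∀ y e, F y = t → At e (p y) → ∀ ξ ∈ VS p F y e, Θ y e ξ = 0 := by
  obtain ⟨y₀, hy₀⟩ := hcon.nonempty
  have hy₀t : F y₀ = t := hy₀
  choose b hb using fun k : K => hE k k.2
  have hFt : ∀ (k : K) y, F y = t → F ((k : Γ) • y) = t := fun k y hy => by rw [hF0 k k.2, hy]
  have hbm : ∀ k k' : K, b (k * k') = b k + π (k : Γ) (b k') := by
    intro k k'
    have h1 := hb (k * k') y₀ hy₀t
    rw [Subgroup.coe_mul, mul_smul, hb k _ (hFt k' _ hy₀t), hb k' _ hy₀t, map_add, map_mul] at h1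
    have h2 : (π (k : Γ) * π (k' : Γ)) (u y₀) = π (k : Γ) (π (k' : Γ) (u y₀)) := rfl
    rw [h2, add_assoc] at h1
    rw [← add_left_cancel h1, add_comm]
  have hbN : ∀ k ∈ N, b k = 0 := by
    intro k hk
    have h1 := hb k y₀ hy₀t
    rw [hN' k hk y₀ hy₀t, hN k hk] at h1
    have h2 : ((1 : W ≃ₗᵢ[ℂ] W)) (u y₀) = u y₀ := rfl
    rw [h2] at h1
    exact left_eq_add.1 h1
  -- the quotient representation
  let πK : K →* (W ≃ₗᵢ[ℂ] W) := π.comp K.subtype
  have hker : N ≤ πK.ker := fun k hk => hN k hk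
  let πQ : K ⧸ N →* (W ≃ₗᵢ[ℂ] W) := QuotientGroup.lift N πK hker
  let bQ : K ⧸ N → W := fun x => Quotient.liftOn' x b (by
    intro k k' hkk
    have h1 : k⁻¹ * k' ∈ N := QuotientGroup.leftRel_apply.1 hkk
    have h2 := hbm k (k⁻¹ * k')
    rw [mul_inv_cancel_left, hbN _ h1, map_zero, add_zero] at h2
    exact h2.symm)
  have hbQ : ∀ k : K, bQ (k : K ⧸ N) = b k := fun k => rfl
  have hπQ : ∀ k : K, πQ (k : K ⧸ N) = π (k : Γ) := fun k => rfl
  obtain ⟨w, hw⟩ := delormeC hT πQ bQ (by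
    intro g h
    obtain ⟨g, rfl⟩ := QuotientGroup.mk_surjective g
    obtain ⟨h, rfl⟩ := QuotientGroup.mk_surjective h
    exact hbm g h)
  have hwk : ∀ k : K, π (k : Γ) w + b k = w := fun k => hw (k : K ⧸ N)
  obtain ⟨D, hD, hcov⟩ := hcpt
  refine fib_zero hp hF hcon hreg hΘ hcont hD (w := w) (fun y hy => ?_)
  obtain ⟨k, hk, hkD⟩ := hcov y hy
  refine ⟨k • y, hkD, hFt ⟨k, hk⟩ y hy, ?_⟩
  have h1 : u (k • y) - w = π k (u y - w) := by
    conv_lhs => rw [← hwk ⟨k, hk⟩]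
    rw [hb ⟨k, hk⟩ y hy, map_sub]
    abel
  rw [h1, (π k).norm_map]

end

end Vale.Agent.P284.H15.Del
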