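import Vale.Agent.P284.H15.T.VertL
import Vale.Agent.P284.H15.G.NulG
import Vale.Agent.P284.H650.T.Spec

/-!
# P284 (helper15), T3⁺, (T9a): no vectors fixed by a subgroup of finite index of `K`
-/

open scoped Manifold ContDiff Topology InnerProductSpace ComplexConjugate Pointwise
open Filter Set Metric

noncomputable section

namespace Vale.Agent.P284.H15.Del

open Vale.Agent.P272.K Vale.Agent.P284.H894.G Vale.Agent.P284.H894.V Vale.Agent.P284.H894.W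
  Vale.Agent.P284.H213.Grp Vale.Agent.P284.H619 Vale.Agent.P284.H119.Kaz Vale.Agent.P284.H885.Ker
  Vale.Agent.P284.H650.T Vale.Agent.P284.H494 Vale.Agent.P284.H378

section
variable {n q : ℕ} {X : Type} [TopologicalSpace X] [ChartedSpace (Cm n) X]
  {E Γ : Type} [TopologicalSpace E] [Group Γ] [MulAction Γ E] {p : E → X} {F : E → Cm q}

/-- one fibre: a vector fixed by a subgroup of finite index is orthogonal to the values of `Θ` -/
theorem fix_fib (hp : IsCoveringMap p) {K : Subgroup Γ}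
    (hF : HolE n p F) (hF0 : ∀ k ∈ K, ∀ y, F (k • y) = F y) (hfg : Group.FG K)
    (hnvi : ¬ VirtIndicable K) {t : Cm q}
    {K' : Subgroup Γ} (hK'K : K' ≤ K) (hfi : (K'.subgroupOf K).FiniteIndex)
    (hcpt : ∃ D : Set E, IsCompact D ∧ ∀ y : E, F y = t → ∃ k ∈ K', k • y ∈ D)
    (hcon : IsConnected (F ⁻¹' {t})) (hreg : ∀ y, F y = t → Reg (n := n) p F y)
    {W : Type} [NormedAddCommGroup W] [InnerProductSpace ℂ W]
    {π : Γ →* (W ≃ₗᵢ[ℂ] W)} {Θ : E → Chart n X → (Cm n →L[ℂ] W)} {u : E → W}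
    (hΘ : VPot p F t W Θ u) (hE : VEqui p F t K π Θ u) {x : W} (hx : ∀ k ∈ K', π k x = x) :
    ∀ y e, F y = t → At e (p y) → ∀ ξ ∈ VS p F y e, ⟪x, Θ y e ξ⟫_ℂ = 0 := by
  obtain ⟨D, hD, hDcov⟩ := hcpt
  obtain ⟨y₁, hy₁⟩ := hcon.nonempty
  have hy₁ : F y₁ = t := hy₁
  -- the periods vanish
  have hper : ∀ w, (∀ k ∈ K', π k w = w) → ∀ k ∈ K', ∀ y, F y = t →
      ⟪w, u (k • y)⟫_ℂ = ⟪w, u y⟫_ℂ := by
    intro w hw
    have hb : ∀ k : Γ, ∃ b : W, k ∈ K → ∀ y, F y = t → u (k • y) = π k (u y) + b := by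
      intro k
      by_cases hk : k ∈ K
      · obtain ⟨b, hb⟩ := hE.pot k hk
        exact ⟨b, fun _ => hb⟩
      · exact ⟨0, fun h => absurd h hk⟩
    choose b hb using hb
    have h1 : ∀ k ∈ K', ∀ y, F y = t → ⟪w, u (k • y)⟫_ℂ = ⟪w, u y⟫_ℂ + ⟪w, b k⟫_ℂ := by
      intro k hk y hy
      rw [hb k (hK'K hk) y hy, inner_add_right]
      congr 1
      have h2 : π k w = w := hw k hk
      calc ⟪w, π k (u y)⟫_ℂ = ⟪π k w, π k (u y)⟫_ℂ := by rw [h2]
        _ = ⟪w, u y⟫_ℂ := (π k).inner_map_map _ _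
    have h2 : ∀ k ∈ K', ∀ k' ∈ K', ⟪w, b (k * k')⟫_ℂ = ⟪w, b k⟫_ℂ + ⟪w, b k'⟫_ℂ := by
      intro k hk k' hk'
      have e1 := h1 (k * k') (K'.mul_mem hk hk') y₁ hy₁
      have e2 := h1 k hk (k' • y₁) (by rw [hF0 k' (hK'K hk'), hy₁])
      have e3 := h1 k' hk' y₁ hy₁
      rw [mul_smul, e2, e3] at e1
      have e4 : ⟪w, b k'⟫_ℂ + ⟪w, b k⟫_ℂ = ⟪w, b (k * k')⟫_ℂ := by
        rw [add_assoc] at e1
        exact add_left_cancel e1
      rw [← e4, add_comm]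
    have h3 := Vale.Agent.P284.H221.hom_zero_sub (K := K) hfg hnvi hK'K hfi
      (fun k => ⟪w, b k⟫_ℂ) h2
    intro k hk y hy
    rw [h1 k hk y hy, h3 k hk, add_zero]
  -- `Re ⟪w, u⟫` is constant on the fibre
  have hre : ∀ w, (∀ k ∈ K', π k w = w) → ∃ M : ℝ, ∀ y, F y = t → (⟪w, u y⟫_ℂ).re = M := by
    intro w hw
    refine re_const hp hF hcon hreg (fun y e hy he => ?_) hD (fun y hy => ?_)
    · obtain ⟨g, h, hg, hh, hev⟩ := hΘ.pot y e hy he w
      refine ⟨fun z => g z + h z, hg.add hh, ?_⟩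
      filter_upwards [hev] with y' k1 k2
      rw [(k1 k2).1, Complex.add_re, Complex.add_re, Complex.conj_re]
    · obtain ⟨k, hk, hkD⟩ := hDcov y hy
      exact ⟨k • y, hkD, by rw [hF0 k (hK'K hk), hy], by rw [hper w hw k hk y hy]⟩
  -- hence `⟪x, u⟫` is constant
  have hco : ∃ M : ℂ, ∀ y, F y = t → ⟪x, u y⟫_ℂ = M := by
    obtain ⟨M₁, h1⟩ := hre x hx
    obtain ⟨M₂, h2⟩ := hre ((Complex.I : ℂ) • x) fun k hk => by rw [_root_.map_smul, hx k hk]
    refine ⟨⟨M₁, M₂⟩, fun y hy => Complex.ext (h1 y hy) ?_⟩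
    have h3 := h2 y hy
    rw [inner_smul_left, Complex.conj_I] at h3
    simpa using h3
  obtain ⟨M, hM⟩ := hco
  intro y e hy he ξ hξ
  obtain ⟨g, h, hg, hh, hev⟩ := hΘ.pot y e hy he x
  rw [← (hev.self_of_nhds hy).2 ξ hξ]
  refine deriv_zero_loc hp hF hy he (hreg y hy) hg hh (M := M) ?_ ξ hξ
  filter_upwards [hev] with y' k1 k2
  rw [← (k1 k2).1, hM y' k2]

end

/-- **(T9a)** -/
theorem fixStmt (hTh : ThStmt) (hSep : SepStmt) : FixStmt := by
  intro n q X _ _ _ _ _ _ w E Γ _ _ _ _ p F c K hStd W _ _ _ π S Θ J hJ K' hK' hfi x hx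
  obtain ⟨hme, hThE, -, htot, -⟩ := hTh n q X w E Γ p F c K hStd W π S Θ J hJ
  obtain ⟨hRo, hRd, -, hRc, -, -⟩ := hSep n q X w E Γ p F c K hStd
  obtain ⟨B, hB⟩ := hStd.hol
  have hp := hStd.gal.cov
  have hHE : HolE n p F := holE_of hB
  have hF0 : ∀ k ∈ K, ∀ y, F (k • y) = F y := fun k hk y => by
    rw [hStd.eqv, (hStd.ker k).1 hk, add_zero]
  have key : ∀ x : W, (∀ g ∈ K', π g x = x) → ∀ y e, Reg (n := n) p F y → At e (p y) →
      ∀ ξ ∈ VS p F y e, ⟪x, Θ y e ξ⟫_ℂ = 0 := by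
    intro x hx
    refine dense_ext hp hB hThE.hol hRd (C := {a | ⟪x, a⟫_ℂ = 0})
      (isClosed_eq (continuous_const.inner continuous_id) continuous_const) ?_
    intro y e hy he ξ hξ
    have hreg : ∀ y', F y' = F y → Reg (n := n) p F y' := hy
    obtain ⟨u, hu, hE⟩ := hThE.pot (F y) (fun h => h hy)
    exact fix_fib hp hHE hF0 hStd.fg hStd.nvi hK' hfi
      (H15.G.compact_fib hStd.gal hHE hStd.eqv hStd.lat
        ⟨{1}, Set.finite_singleton _, fun g hg => ⟨1, rfl, by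
          rw [inv_one, one_mul]; exact (hStd.ker g).2 hg⟩⟩ hfi (F y))
      (hRc _ hy) hreg hu hE hx y e rfl he ξ hξ
  exact htot x (key x hx) (key (J x) fun g hg => by rw [← hJ.isJ.comm, hx g hg])

end Vale.Agent.P284.H15.Del
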