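import Mathlib.Analysis.Matrix.Order
import Mathlib.Analysis.InnerProductSpace.Completion
import Mathlib.Analysis.InnerProductSpace.GramMatrix
import Mathlib.Analysis.SpecialFunctions.Exponential
import Mathlib.Analysis.InnerProductSpace.Projection.Submodule

/-!
# P284 (helper15), T3⁺, Delorme's theorem, first part: positive semidefinite kernels, the space of a
positive semidefinite kernel
-/

open scoped Topology InnerProductSpace
open Filter Set

noncomputable section

namespace Vale.Agent.P284.H15.Del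

section psd
variable {ι : Type*}

theorem psd_gram {E : Type*} [NormedAddCommGroup E] [InnerProductSpace ℝ E] (v : ι → E) :
    (Matrix.of fun i j => ⟪v i, v j⟫_ℝ : Matrix ι ι ℝ).PosSemidef := by
  refine ⟨?_, fun x => ?_⟩
  · ext i j
    rw [Matrix.conjTranspose_apply, Matrix.of_apply, Matrix.of_apply]
    exact real_inner_comm _ _
  · have h1 : (x.sum fun i xi => x.sum fun j xj =>
        star xi * (Matrix.of fun i j => ⟪v i, v j⟫_ℝ : Matrix ι ι ℝ) i j * xj) =
        ⟪∑ i ∈ x.support, x i • v i, ∑ j ∈ x.support, x j • v j⟫_ℝ := by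
      rw [sum_inner]
      refine Finset.sum_congr rfl fun i _ => ?_
      rw [inner_sum]
      refine Finset.sum_congr rfl fun j _ => ?_
      rw [real_inner_smul_left, real_inner_smul_right]
      show x i * ⟪v i, v j⟫_ℝ * x j = _
      ring
    rw [h1]
    exact real_inner_self_nonneg

theorem psd_pow {K : Matrix ι ι ℝ} (hK : K.PosSemidef) (n : ℕ) :
    (Matrix.of fun i j => K i j ^ n : Matrix ι ι ℝ).PosSemidef := by
  induction n with
  | zero =>
    have h1 := psd_gram (ι := ι) (fun _ => (1 : ℝ))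
    have h2 : (Matrix.of fun i j => K i j ^ 0 : Matrix ι ι ℝ) =
        Matrix.of fun _ _ => ⟪(1 : ℝ), (1 : ℝ)⟫_ℝ := by
      ext i j
      simp
    rw [h2]
    exact h1
  | succ n ih =>
    have h1 := ih.hadamard hK
    have h2 : (Matrix.of fun i j => K i j ^ (n + 1) : Matrix ι ι ℝ) =
        Matrix.hadamard (Matrix.of fun i j => K i j ^ n) K := by
      ext i j
      rw [Matrix.hadamard_apply, Matrix.of_apply, Matrix.of_apply, pow_succ]
    rw [h2]
    exact h1

theorem psd_part {K : Matrix ι ι ℝ} (hK : K.PosSemidef) (n : ℕ) :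
    (Matrix.of fun i j => ∑ k ∈ Finset.range n, K i j ^ k / (k.factorial : ℝ) :
      Matrix ι ι ℝ).PosSemidef := by
  induction n with
  | zero =>
    have h2 : (Matrix.of fun i j => ∑ k ∈ Finset.range 0, K i j ^ k / (k.factorial : ℝ) :
        Matrix ι ι ℝ) = 0 := by
      ext i j
      simp
    rw [h2]
    exact Matrix.PosSemidef.zero
  | succ n ih =>
    have h1 := ih.add ((psd_pow hK n).smul (a := ((n.factorial : ℝ))⁻¹) (by positivity))
    have h2 : (Matrix.of fun i j => ∑ k ∈ Finset.range (n + 1), K i j ^ k / (k.factorial : ℝ) :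
        Matrix ι ι ℝ) = (Matrix.of fun i j => ∑ k ∈ Finset.range n, K i j ^ k / (k.factorial : ℝ)) +
          ((n.factorial : ℝ))⁻¹ • (Matrix.of fun i j => K i j ^ n) := by
      ext i j
      rw [Matrix.add_apply, Matrix.smul_apply, Matrix.of_apply, Matrix.of_apply, Matrix.of_apply,
        Finset.sum_range_succ, smul_eq_mul, div_eq_inv_mul (K i j ^ n)]
    rw [h2]
    exact h1

theorem psd_exp {K : Matrix ι ι ℝ} (hK : K.PosSemidef) :
    (Matrix.of fun i j => Real.exp (K i j) : Matrix ι ι ℝ).PosSemidef := by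
  refine ⟨?_, fun x => ?_⟩
  · ext i j
    rw [Matrix.conjTranspose_apply, Matrix.of_apply, Matrix.of_apply, star_trivial]
    have h1 : K j i = K i j := by
      have h2 := congrFun (congrFun hK.1 i) j
      rwa [Matrix.conjTranspose_apply, star_trivial] at h2
    rw [h1]
  · have hlim : Tendsto (fun n => x.sum fun i xi => x.sum fun j xj =>
        star xi * (Matrix.of fun i j => ∑ k ∈ Finset.range n, K i j ^ k / (k.factorial : ℝ) :
          Matrix ι ι ℝ) i j * xj) atTop (𝓝 (x.sum fun i xi => x.sum fun j xj =>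
        star xi * (Matrix.of fun i j => Real.exp (K i j) : Matrix ι ι ℝ) i j * xj)) := by
      simp only [Finsupp.sum]
      refine tendsto_finsetSum _ fun i _ => tendsto_finsetSum _ fun j _ => ?_
      refine Tendsto.mul (Tendsto.mul tendsto_const_nhds ?_) tendsto_const_nhds
      simp only [Matrix.of_apply]
      have h1 := (NormedSpace.expSeries_div_hasSum_exp (K i j)).tendsto_sum_nat
      rwa [← Real.exp_eq_exp_ℝ] at h1
    exact ge_of_tendsto' hlim fun n => (psd_part hK n).2 x

/-- **Schoenberg's kernel.** -/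
theorem psd_gauss {E : Type*} [NormedAddCommGroup E] [InnerProductSpace ℝ E] {t : ℝ}
    (ht : 0 ≤ t) : (Matrix.of fun x y => Real.exp (-t * ‖x - y‖ ^ 2) : Matrix E E ℝ).PosSemidef := by
  have h1 := psd_gram (ι := E) (fun x : E => x)
  have h2 := psd_exp (h1.smul (a := 2 * t) (by positivity))
  have h3 := psd_gram (ι := E) (fun x : E => Real.exp (-t * ‖x‖ ^ 2))
  have h4 := h3.hadamard h2
  have h5 : (Matrix.of fun x y => Real.exp (-t * ‖x - y‖ ^ 2) : Matrix E E ℝ) =
      Matrix.hadamard (Matrix.of fun x y => ⟪Real.exp (-t * ‖x‖ ^ 2), Real.exp (-t * ‖y‖ ^ 2)⟫_ℝ)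
      (Matrix.of fun x y => Real.exp (((2 * t) • (Matrix.of fun x y => ⟪x, y⟫_ℝ : Matrix E E ℝ))
        x y)) := by
    ext x y
    rw [Matrix.hadamard_apply, Matrix.of_apply, Matrix.of_apply, Matrix.of_apply, Matrix.smul_apply,
      Matrix.of_apply, smul_eq_mul, real_inner_eq_re_inner, norm_sub_sq_real]
    have h6 : ⟪Real.exp (-t * ‖x‖ ^ 2), Real.exp (-t * ‖y‖ ^ 2)⟫_ℝ =
        Real.exp (-t * ‖x‖ ^ 2) * Real.exp (-t * ‖y‖ ^ 2) := by
      simp [mul_comm]
    simp only [RCLike.re_to_real]
    rw [h6, ← Real.exp_add, ← Real.exp_add]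
    congr 1
    ring
  rw [h5]
  exact h4

end psd

end Vale.Agent.P284.H15.Del
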