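import Vale.Agent.P284.H15.T.Gns

/-!
# P284 (helper15), T3⁺, Delorme's theorem: the Hilbert space of a positive semidefinite kernel, with its
group of symmetries
-/

open scoped Topology InnerProductSpace
open Filter Set

noncomputable section

namespace Vale.Agent.P284.H15.Del

open UniformSpace

/-- isometric representations extend to the completion -/
theorem compl_rep {E : Type} [SeminormedAddCommGroup E] [InnerProductSpace ℝ E] {G : Type} [Group G]
    (L : G → (E →ₗᵢ[ℝ] E)) (h1 : ∀ x, L 1 x = x) (hmul : ∀ g h x, L (g * h) x = L g (L h x)) :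
    ∃ π : G →* (Completion E ≃ₗᵢ[ℝ] Completion E), ∀ g (x : E),
      π g (x : Completion E) = ((L g x : E) : Completion E) := by
  have huc : ∀ g, UniformContinuous (L g) := fun g => (L g).isometry.uniformContinuous
  have hcoe : ∀ g (x : E), Completion.map (L g) (x : Completion E) = ((L g x : E) : Completion E) :=
    fun g x => Completion.map_coe (huc g) x
  have hcont : ∀ g, Continuous (Completion.map (L g)) := fun g => Completion.continuous_map
  have hone : ∀ x, Completion.map (L 1) x = x := by
    intro x
    refine Completion.induction_on x (isClosed_eq (hcont 1) continuous_id) fun a => ?_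
    rw [hcoe, h1]
  have hm : ∀ g h x, Completion.map (L (g * h)) x = Completion.map (L g) (Completion.map (L h) x) := by
    intro g h x
    refine Completion.induction_on x (isClosed_eq (hcont _) ((hcont g).comp (hcont h))) fun a => ?_
    rw [hcoe, hcoe, hcoe, hmul]
  let T : G → (Completion E →ₗ[ℝ] Completion E) := fun g =>
    { toFun := Completion.map (L g)
      map_add' := fun x y => by
        refine Completion.induction_on₂ x y (isClosed_eq ((hcont g).comp continuous_add)
          (((hcont g).comp continuous_fst).add ((hcont g).comp continuous_snd))) fun a b => ?_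
        rw [← Completion.coe_add, hcoe, hcoe, hcoe, map_add, Completion.coe_add]
      map_smul' := fun c x => by
        refine Completion.induction_on x (isClosed_eq ((hcont g).comp (continuous_const_smul c))
          ((hcont g).const_smul c)) fun a => ?_
        rw [← Completion.coe_smul, hcoe, hcoe, map_smul, Completion.coe_smul]
        rfl }
  have hT : ∀ g x, T g x = Completion.map (L g) x := fun g x => rfl
  have hinv : ∀ g x, T g (T g⁻¹ x) = x := fun g x => by
    rw [hT, hT, ← hm, mul_inv_cancel, hone]
  have hinv' : ∀ g x, T g⁻¹ (T g x) = x := fun g x => by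
    rw [hT, hT, ← hm, inv_mul_cancel, hone]
  let π : G → (Completion E ≃ₗᵢ[ℝ] Completion E) := fun g =>
    { toLinearEquiv := LinearEquiv.ofLinearMap (T g) (T g⁻¹) (LinearMap.ext fun x => hinv g x)
        (LinearMap.ext fun x => hinv' g x)
      norm_map' := fun x => by
        show ‖Completion.map (L g) x‖ = ‖x‖
        refine Completion.induction_on x (isClosed_eq (continuous_norm.comp (hcont g))
          continuous_norm) fun a => ?_
        rw [hcoe, Completion.norm_coe, Completion.norm_coe, (L g).norm_map] }
  refine ⟨{ toFun := π, map_one' := ?_, map_mul' := ?_ }, fun g x => hcoe g x⟩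
  · exact LinearIsometryEquiv.ext fun x => hone x
  · intro g h
    exact LinearIsometryEquiv.ext fun x => hm g h x

section gns
variable {ι : Type} {K : Matrix ι ι ℝ}

/-- the bilinear form of a kernel -/
def bil (K : Matrix ι ι ℝ) : (ι →₀ ℝ) →ₗ[ℝ] (ι →₀ ℝ) →ₗ[ℝ] ℝ :=
  Finsupp.linearCombination ℝ (fun i => Finsupp.linearCombination ℝ (fun j => K i j))

lemma bil_single (i j : ι) : bil K (Finsupp.single i 1) (Finsupp.single j 1) = K i j := by
  simp [bil]

lemma bil_symm (hK : K.PosSemidef) (f g : ι →₀ ℝ) : bil K f g = bil K g f := by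
  have h1 : bil K = (bil K).flip := by
    refine Finsupp.lhom_ext' fun i => LinearMap.ext_ring ?_
    refine Finsupp.lhom_ext' fun j => LinearMap.ext_ring ?_
    show bil K (Finsupp.single i 1) (Finsupp.single j 1) =
      bil K (Finsupp.single j 1) (Finsupp.single i 1)
    rw [bil_single, bil_single]
    have h2 := congrFun (congrFun hK.1 j) i
    rwa [Matrix.conjTranspose_apply, star_trivial] at h2
  conv_lhs => rw [h1]
  rfl

lemma bil_nonneg (hK : K.PosSemidef) (f : ι →₀ ℝ) : 0 ≤ bil K f f := by
  have h1 := hK.2 f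
  have h2 : bil K f f = f.sum fun i xi => f.sum fun j xj => star xi * K i j * xj := by
    simp only [bil, Finsupp.linearCombination_apply, Finsupp.sum, LinearMap.sum_apply,
      LinearMap.smul_apply, smul_eq_mul, star_trivial]
    refine Finset.sum_congr rfl fun i _ => ?_
    rw [Finset.mul_sum]
    refine Finset.sum_congr rfl fun j _ => ?_
    ring
  rw [h2]
  exact h1

/-- the inner product of a kernel -/
@[reducible]
def preCore (hK : K.PosSemidef) : PreInnerProductSpace.Core ℝ (ι →₀ ℝ) where
  inner f g := bil K f g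
  conj_inner_symm f g := by
    show (starRingEnd ℝ) (bil K g f) = bil K f g
    rw [conj_trivial, bil_symm hK]
  re_inner_nonneg f := bil_nonneg hK f
  add_left f g h := by
    show bil K (f + g) h = bil K f h + bil K g h
    rw [map_add, LinearMap.add_apply]
  smul_left f g r := by
    show bil K (r • f) g = (starRingEnd ℝ) r * bil K f g
    rw [map_smul, LinearMap.smul_apply, conj_trivial, smul_eq_mul]

/-- **the Hilbert space of a kernel, with its symmetries** -/
theorem exists_gns (hK : K.PosSemidef) {G : Type} [Group G] (σ : G →* Equiv.Perm ι)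
    (hσ : ∀ g i j, K (σ g i) (σ g j) = K i j) :
    ∃ (H : Type) (_ : NormedAddCommGroup H) (_ : InnerProductSpace ℝ H) (_ : CompleteSpace H)
      (e : ι → H) (π : G →* (H ≃ₗᵢ[ℝ] H)), (∀ i j, ⟪e i, e j⟫_ℝ = K i j) ∧
      ∀ g i, π g (e i) = e (σ g i) := by
  let c : PreInnerProductSpace.Core ℝ (ι →₀ ℝ) := preCore hK
  let i1 : SeminormedAddCommGroup (ι →₀ ℝ) :=
    InnerProductSpace.Core.toSeminormedAddCommGroup (𝕜 := ℝ)
  let i2 : InnerProductSpace ℝ (ι →₀ ℝ) := InnerProductSpace.ofCore c
  have hin : ∀ f g : ι →₀ ℝ, ⟪f, g⟫_ℝ = bil K f g := fun f g => rfl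
  have hb : ∀ g, ∀ f f' : ι →₀ ℝ, bil K (Finsupp.lmapDomain ℝ ℝ (σ g) f)
      (Finsupp.lmapDomain ℝ ℝ (σ g) f') = bil K f f' := by
    intro g
    have h1 : (bil K).compl₁₂ (Finsupp.lmapDomain ℝ ℝ (σ g)) (Finsupp.lmapDomain ℝ ℝ (σ g)) =
        bil K := by
      refine Finsupp.lhom_ext' fun i => LinearMap.ext_ring ?_
      refine Finsupp.lhom_ext' fun j => LinearMap.ext_ring ?_
      show bil K (Finsupp.lmapDomain ℝ ℝ (σ g) (Finsupp.single i 1))
        (Finsupp.lmapDomain ℝ ℝ (σ g) (Finsupp.single j 1)) =
        bil K (Finsupp.single i 1) (Finsupp.single j 1)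
      rw [Finsupp.lmapDomain_apply, Finsupp.lmapDomain_apply, Finsupp.mapDomain_single,
        Finsupp.mapDomain_single, bil_single, bil_single, hσ]
    intro f f'
    conv_rhs => rw [← h1]
    rfl
  let L : G → ((ι →₀ ℝ) →ₗᵢ[ℝ] (ι →₀ ℝ)) := fun g =>
    { toLinearMap := Finsupp.lmapDomain ℝ ℝ (σ g)
      norm_map' := fun f => by
        rw [← sq_eq_sq₀ (norm_nonneg _) (norm_nonneg _), ← real_inner_self_eq_norm_sq,
          ← real_inner_self_eq_norm_sq, hin, hin, hb] }
  have hL : ∀ g f, L g f = Finsupp.mapDomain (σ g) f := fun g f => rfl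
  obtain ⟨π, hπ⟩ := compl_rep L
    (fun f => by
      rw [hL, map_one]
      show Finsupp.mapDomain id f = f
      rw [Finsupp.mapDomain_id])
    (fun g h f => by
      rw [hL, hL, hL, map_mul, ← Finsupp.mapDomain_comp]
      rfl)
  refine ⟨Completion (ι →₀ ℝ), inferInstance, inferInstance, inferInstance,
    fun i => ((Finsupp.single i 1 : ι →₀ ℝ) : Completion (ι →₀ ℝ)), π, fun i j => ?_, fun g i => ?_⟩
  · rw [Completion.inner_coe, hin, bil_single]
  · rw [hπ, hL, Finsupp.mapDomain_single]

end gns

end Vale.Agent.P284.H15.Del
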