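import Vale.Agent.P284.H15.T.LimT
import Vale.Agent.P284.H551.L4G

/-!
# P284 (helper15), T2: the limit form for a group without property (T), unconditional
-/

open scoped Manifold ContDiff Topology
open Filter Set

noncomputable section

namespace Vale.Agent.P284.H15.T

open Vale.Agent.P272.K Vale.Agent.P284.H894 Vale.Agent.P284.H894.G
  Vale.Agent.P284.H894.V Vale.Agent.P284.H119.Kaz Vale.Agent.P284.H551

/-- **T14** -/
theorem limT : H661.T.LimTStmt := limT_of l4v

/-- **the limit** for a group without property (T), literal of `H501.T.LimKStmt` -/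
theorem limK (n : ℕ) (X : Type) [TopologicalSpace X] [T2Space X] [CompactSpace X]
    [ConnectedSpace X] [ChartedSpace (Cm n) X] [IsManifold 𝓘(ℂ, Cm n) ω X]
    (w : Chart n X → Cm n → Matrix (Fin n) (Fin n) ℂ) (hw : IsKahler w)
    (E Γ : Type) [TopologicalSpace E] [ConnectedSpace E] [Group Γ] [MulAction Γ E]
    (p : E → X) (hG : IsGalois Γ p) (hK : ¬ Kazhdan Γ) : Lim0Concl (n := n) (Γ := Γ) p :=
  limK_of l4v n X w hw E Γ p hG hK

end Vale.Agent.P284.H15.T
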