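import Vale.Agent.P284.H15.T.PH

/-!
# P284 (helper15), T2: the limit form for a group without property (T)
-/

open scoped Manifold ContDiff Topology Pointwise ComplexConjugate ComplexOrder InnerProductSpace
open Filter Set Metric MeasureTheory

noncomputable section

namespace Vale.Agent.P284.H15.T

open Vale.Agent.P272.K Vale.Agent.P284.H248 Vale.Agent.P284.H894 Vale.Agent.P284.H894.G
  Vale.Agent.P284.H894.V Vale.Agent.P284.H119.Kaz Vale.Agent.P284.H551

theorem kazT_of {Γ : Type} [Group Γ] (h : Kazhdan Γ) : H661.T.KazT Γ := by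
  obtain ⟨S, ε, hε, h⟩ := h
  refine ⟨S, ε, hε, fun W _ _ _ π hπ x hx => ?_⟩
  by_contra hcon
  push Not at hcon
  obtain ⟨η, hη, hinv⟩ := h W π x hx fun s hs => (hcon s hs).le
  exact hη (hπ η hinv)

theorem kazhdan_of {Γ : Type} [Group Γ] (h : H661.T.KazT Γ) : Kazhdan Γ := by
  obtain ⟨S, ε, hε, h⟩ := h
  refine ⟨S, ε / 2, by positivity, fun W _ _ _ π x hx hs => ?_⟩
  by_contra hcon
  push Not at hcon
  obtain ⟨g, hg, hle⟩ := h W π (fun η hη => by
    by_contra h0
    obtain ⟨g, hg⟩ := hcon η h0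
    exact hg (hη g)) x hx
  have := hs g hg
  linarith

/-- **the limit** for a group without property (T), from helper551's `L4VStmt` -/
theorem limK_of (h4 : L4VStmt) : ∀ (n : ℕ) (X : Type) [TopologicalSpace X] [T2Space X]
    [CompactSpace X] [ConnectedSpace X]
    [ChartedSpace (Cm n) X] [IsManifold 𝓘(ℂ, Cm n) ω X]
    (w : Chart n X → Cm n → Matrix (Fin n) (Fin n) ℂ), IsKahler w →
    ∀ (E Γ : Type) [TopologicalSpace E] [ConnectedSpace E] [Group Γ] [MulAction Γ E]
      (p : E → X), IsGalois Γ p → ¬ Kazhdan Γ → H661.T.Lim0C n X E Γ p := by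
  intro n X _ _ _ _ _ _ w hw E Γ _ _ _ _ p hG hK
  obtain ⟨C, D, K, ⟨P⟩, -⟩ := exists_eCoc hw hG
  obtain ⟨H, _, _, _, π, u, hu⟩ := phseqV_of_kaz hK C P K (hyperfilter ℕ)
    Nat.hyperfilter_le_atTop
  exact h4 n X E Γ p hG C D H (hyperfilter ℕ) π _ u hu

theorem limT_of (h4 : L4VStmt) : H661.T.LimTStmt := by
  intro n X _ _ _ _ _ _ w hw E Γ _ _ _ _ p hG hK
  exact limK_of h4 n X w hw E Γ p hG fun h => hK (kazT_of h)

end Vale.Agent.P284.H15.T
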