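import Vale.Agent.P284.H977.T.T8
import Vale.Agent.P284.H119.TKg
import Vale.Agent.P284.H730.T3
import Vale.Agent.P284.H10.T4
import Vale.Agent.P284.H639.T6S
import Vale.Agent.P284.H731.T5

/-!
# P284 (helper15), T2: almost pluriharmonic sections if the group does not have property (T)
-/

open scoped Manifold ContDiff Topology Pointwise ComplexConjugate ComplexOrder InnerProductSpace
open Filter Set Metric MeasureTheory

noncomputable section

namespace Vale.Agent.P284.H15.T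

open Vale.Agent.P272.K Vale.Agent.P284.H248 Vale.Agent.P284.H894 Vale.Agent.P284.H894.V
  Vale.Agent.P284.H639.V Vale.Agent.P284.H639.Tw Vale.Agent.P284.H639.T6 Vale.Agent.P284.H913.V
  Vale.Agent.P284.H287.T Vale.Agent.P284.H359.V Vale.Agent.P284.H66 Vale.Agent.P284.H66.S7
  Vale.Agent.P284.H119.Kaz Vale.Agent.P284.H977.T
open Vale.Agent.P284.H409.T (T2Stmt T3Stmt T4Stmt T5Stmt T6Stmt)

variable {n : ℕ} {Γ : Type} [Group Γ]

/-- from almost invariant vectors to almost pluriharmonic sections, for a class of representations: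
`sp` says that bounded sequences of sections whose energy tends to `0` tend weakly to `0` -/
theorem seq_of (C : Coc n Γ) (P : PU C) (K : KM C) {ε : ℝ} (hε : 0 < ε) :
    ∃ δ : ℝ, 0 < δ ∧ ∀ (H : Type) [NormedAddCommGroup H] [InnerProductSpace ℝ H] [CompleteSpace H]
      (π : Γ →* (H ≃ₗᵢ[ℝ] H)) (ξ : H), ‖ξ‖ = 1 → (∀ s ∈ C.N, ‖π s ξ - ξ‖ ≤ δ) →
      (∀ h : ℕ → Γ → C.I → Cm n → H, (∀ j, Sec C π 0 (h j)) →
        (∃ B : ℝ, ∀ j, BInt P K (fun a z => ‖h j 1 a z‖ ^ 2) ≤ B) →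
        Tendsto (fun j => BInt P K (fun a z => grH (K.w a) (h j 1 a) (h j 1 a) z)) atTop (𝓝 0) →
        ∀ f, Sec C π 0 f →
        Tendsto (fun j => BInt P K (fun a z => ⟪h j 1 a z, f 1 a z⟫_ℝ)) atTop (𝓝 0)) →
      ∃ u, Sec C π 0 u ∧ BInt P K (fun a z => hhH (K.w a) (u 1 a) (u 1 a) z) <
        ε * BInt P K (fun a z => grH (K.w a) (u 1 a) (u 1 a) z) := by
  have h2 := H119.T.t2Stmt
  have h3 := H730.T.t3Stmt
  have h5 := H731.T.t5Stmt
  obtain ⟨c, A, ε₁, hc, hA, hε₁, h6'⟩ := H639.T6.t6Stmt n Γ C P K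
  obtain ⟨δ, hδ, hδ1, hδ2⟩ : ∃ δ : ℝ, 0 < δ ∧ δ ≤ ε₁ ∧ A * δ ^ 2 < ε * c := by
    have h1 : 0 < ε * c / (2 * A) := by positivity
    refine ⟨min ε₁ (√(ε * c / (2 * A))), lt_min hε₁ (Real.sqrt_pos.2 h1), min_le_left _ _, ?_⟩
    have e1 : (min ε₁ (√(ε * c / (2 * A)))) ^ 2 ≤ ε * c / (2 * A) := by
      calc _ ≤ (√(ε * c / (2 * A))) ^ 2 :=
            pow_le_pow_left₀ (le_min hε₁.le (Real.sqrt_nonneg _)) (min_le_right _ _) 2
        _ = _ := Real.sq_sqrt h1.le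
    have e2 : A * (ε * c / (2 * A)) = ε * c / 2 := by field_simp
    have e3 := mul_le_mul_of_nonneg_left e1 hA.le
    have e4 : 0 < ε * c := by positivity
    linarith
  refine ⟨δ, hδ, ?_⟩
  intro H _ _ _ π ξ hξ hs hinv
  obtain ⟨f, hf, hf1, hf2⟩ := h6' H π ξ δ hξ hδ.le hδ1 hs
  have hen : ∀ s : SM C π, enT P K π s s = BInt P K
      (fun a z => grH (K.w a) (s.1 1 a) (s.1 1 a) z) := fun s => enT_eq h2 P K s s
  obtain ⟨g, hg⟩ := h5 (SM C π) (ipT P K π) (enT P K π) (LT K π)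
    (fun s t => ipT_symm P K s t) (fun s => ipT_nonneg P K s)
    (fun s t => enT_symm h2 P K s t) (fun s => enT_nonneg h2 P K s)
    (fun s t => by
      show ipT P K π (LT K π s) t = -(-(ipT P K π (LT K π s) t))
      ring)
    (dens_SM h3 P K π)
    (fun h hB hE s => by
      have e1 := hinv (fun j => (h j).1) (fun j => (h j).2)
        (by
          obtain ⟨B, hB⟩ := hB
          exact ⟨B, fun j => by rw [← ipT_self P K (h j)]; exact hB j⟩)
        (by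
          simp only [hen] at hE
          exact hE) s.1 s.2
      exact e1)
    ε hε ⟨⟨f, hf⟩, by
      rw [hen, ipT_self]
      calc _ ≤ A * δ ^ 2 := hf2
        _ < ε * c := hδ2
        _ ≤ _ := mul_le_mul_of_nonneg_left hf1 hε.le⟩
  refine ⟨g.1, g.2, ?_⟩
  have e1 := hh_le h2 P K g
  rw [hen] at hg
  linarith

/-- **T13**: almost pluriharmonic sections if the group does not have property (T). -/
theorem kaz_seq (hK : ¬ Kazhdan Γ) (C : Coc n Γ) (P : PU C) (K : KM C) {ε : ℝ} (hε : 0 < ε) :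
    ∃ (H : Type) (_ : NormedAddCommGroup H) (_ : InnerProductSpace ℝ H) (_ : CompleteSpace H)
      (π : Γ →* (H ≃ₗᵢ[ℝ] H)) (u : Γ → C.I → Cm n → H), (∀ η : H, (∀ g, π g η = η) → η = 0) ∧
      Sec C π 0 u ∧ BInt P K (fun a z => hhH (K.w a) (u 1 a) (u 1 a) z) <
        ε * BInt P K (fun a z => grH (K.w a) (u 1 a) (u 1 a) z) := by
  obtain ⟨δ, hδ, h⟩ := seq_of C P K hε
  obtain ⟨H, _, _, _, π, ξ, hξ, hs, hinv⟩ := not_kazhdan hK C.N hδ
  obtain ⟨u, hu, hlt⟩ := h H π ξ hξ hs (H10.T4.t4Stmt n Γ C P K H π hinv)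
  exact ⟨H, _, _, ‹_›, π, u, hinv, hu, hlt⟩

end Vale.Agent.P284.H15.T
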