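import Vale.Agent.P284.H15.T.PHa
import Vale.Agent.P284.H15.T.Seq
import Vale.Agent.P284.H551.L4T

/-!
# P284 (helper15), T2: the almost pluriharmonic maps of a group without property (T)
-/

open scoped Manifold ContDiff Topology Pointwise ComplexConjugate ComplexOrder InnerProductSpace
open Filter Set Metric MeasureTheory

noncomputable section

set_option linter.unusedSectionVars false

namespace Vale.Agent.P284.H15.T

open Vale.Agent.P272.K Vale.Agent.P284.H894 Vale.Agent.P284.H894.V Vale.Agent.P284.H913.V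
  Vale.Agent.P284.H287.T Vale.Agent.P284.H359.V Vale.Agent.P284.H366 Vale.Agent.P284.H119.Kaz
  Vale.Agent.P284.H551

section
variable {n : ℕ} {H : Type} [NormedAddCommGroup H] [InnerProductSpace ℝ H]

/-! ### Scaling -/

theorem fd_smul (t : ℝ) (u : Cm n → H) (z v : Cm n) :
    fderiv ℝ (fun y => t • u y) z v = t • fderiv ℝ u z v := by
  have h := congrFun (fderiv_const_smul_field (𝕜 := ℝ) (f := u) t) z
  have h2 : (t • u) = fun y => t • u y := rfl
  rw [h2] at h
  rw [h]
  rfl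

theorem dH_smul (t : ℝ) (u : Cm n → H) (z : Cm n) (a : Fin n × Bool) :
    dH (fun y => t • u y) z a = t • dH u z a := fd_smul t u z _

theorem ddH_smul (t : ℝ) (u : Cm n → H) (z : Cm n) (a b : Fin n × Bool) :
    ddH (fun y => t • u y) z a b = t • ddH u z a b := by
  unfold ddH
  simp only [fd_smul]

theorem grH_smul (t : ℝ) (w : Cm n → Matrix (Fin n) (Fin n) ℂ) (u : Cm n → H) (z : Cm n) :
    grH w (fun y => t • u y) (fun y => t • u y) z = t ^ 2 * grH w u u z := by
  unfold grH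
  simp only [dH_smul, real_inner_smul_left, real_inner_smul_right, Finset.mul_sum]
  refine Finset.sum_congr rfl fun a _ => Finset.sum_congr rfl fun b _ => ?_
  ring

theorem hhH_smul (t : ℝ) (w : Cm n → Matrix (Fin n) (Fin n) ℂ) (u : Cm n → H) (z : Cm n) :
    hhH w (fun y => t • u y) (fun y => t • u y) z = t ^ 2 * hhH w u u z := by
  unfold hhH
  simp only [ddH_smul, real_inner_smul_left, real_inner_smul_right, Finset.mul_sum]
  refine Finset.sum_congr rfl fun a _ => Finset.sum_congr rfl fun b _ =>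
    Finset.sum_congr rfl fun c _ => Finset.sum_congr rfl fun d _ => ?_
  ring

end

section
variable {n : ℕ} {Γ : Type} [Group Γ] {C : Coc n Γ}

theorem BInt_mul (P : PU C) (K : KM C) (t : ℝ) (G : C.I → Cm n → ℝ) :
    BInt P K (fun a z => t * G a z) = t * BInt P K G := by
  unfold BInt
  rw [Finset.mul_sum]
  refine Finset.sum_congr rfl fun a _ => ?_
  rw [← integral_const_mul]
  refine integral_congr_ae (Eventually.of_forall fun z => ?_)
  simp only
  ring

theorem BInt_nonneg' (P : PU C) (K : KM C) {G : C.I → Cm n → ℝ}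
    (h0 : ∀ a, ∀ z ∈ C.V a, 0 ≤ G a z) : 0 ≤ BInt P K G := by
  refine Finset.sum_nonneg fun a _ => setIntegral_nonneg measurableSet_ball fun z hz => ?_
  exact mul_nonneg (mul_nonneg (P.nonneg a a z) (h0 a z hz))
    (vol_nn K (H287.V.V_sub C a hz))

variable {H : Type} [NormedAddCommGroup H] [InnerProductSpace ℝ H] {π : Γ →* (H ≃ₗᵢ[ℝ] H)}

theorem sec_smul {u : Γ → C.I → Cm n → H} (hu : Sec C π 0 u) (t : ℝ) :
    Sec C π 0 (fun γ a z => t • u γ a z) where
  smooth γ a z hz := (hu.smooth γ a z hz).const_smul t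
  compat γ a b z hz := by rw [hu.compat γ a b z hz]
  equi g γ a z hz := by
    rw [hu.equi g γ a z hz]
    simp

/-- normalised almost pluriharmonic sections -/
theorem kaz_norm (hK : ¬ Kazhdan Γ) (C : Coc n Γ) (P : PU C) (K : KM C) {ε : ℝ} (hε : 0 < ε) :
    ∃ (H : Type) (_ : NormedAddCommGroup H) (_ : InnerProductSpace ℝ H) (_ : CompleteSpace H)
      (π : Γ →* (H ≃ₗᵢ[ℝ] H)) (u : Γ → C.I → Cm n → H), Sec C π 0 u ∧
      BInt P K (fun a z => grH (K.w a) (u 1 a) (u 1 a) z) = 1 ∧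
      BInt P K (fun a z => hhH (K.w a) (u 1 a) (u 1 a) z) < ε := by
  obtain ⟨H, _, _, _, π, u, -, hu, hlt⟩ := kaz_seq hK C P K hε
  have hP := Vale.Agent.P284.H730.V.vpStmt
  set E : ℝ := BInt P K (fun a z => grH (K.w a) (u 1 a) (u 1 a) z) with hE
  have h0 : 0 ≤ BInt P K (fun a z => hhH (K.w a) (u 1 a) (u 1 a) z) :=
    BInt_nonneg' P K fun a z hz => hhH_nonneg hP ((K.ku a).pos z (H287.V.V_sub C a hz))
      (hu.smooth 1 a z (H287.V.V_sub C a hz))
  have hE0 : 0 < E := by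
    by_contra hcon
    have : ε * E ≤ 0 := mul_nonpos_of_nonneg_of_nonpos hε.le (not_lt.1 hcon)
    linarith
  have ht : ((Real.sqrt E)⁻¹) ^ 2 = E⁻¹ := by
    rw [inv_pow, Real.sq_sqrt hE0.le]
  refine ⟨H, _, _, ‹_›, π, fun γ a z => (Real.sqrt E)⁻¹ • u γ a z, sec_smul hu _, ?_, ?_⟩
  · have e1 : (fun a z => grH (K.w a) (fun y => (Real.sqrt E)⁻¹ • u 1 a y)
        (fun y => (Real.sqrt E)⁻¹ • u 1 a y) z) =
        fun a z => E⁻¹ * grH (K.w a) (u 1 a) (u 1 a) z := by
      funext a z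
      rw [grH_smul, ht]
    show BInt P K (fun a z => grH (K.w a) (fun y => (Real.sqrt E)⁻¹ • u 1 a y)
        (fun y => (Real.sqrt E)⁻¹ • u 1 a y) z) = 1
    rw [e1, BInt_mul, ← hE, inv_mul_cancel₀ hE0.ne']
  · have e1 : (fun a z => hhH (K.w a) (fun y => (Real.sqrt E)⁻¹ • u 1 a y)
        (fun y => (Real.sqrt E)⁻¹ • u 1 a y) z) =
        fun a z => E⁻¹ * hhH (K.w a) (u 1 a) (u 1 a) z := by
      funext a z
      rw [hhH_smul, ht]
    show BInt P K (fun a z => hhH (K.w a) (fun y => (Real.sqrt E)⁻¹ • u 1 a y)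
        (fun y => (Real.sqrt E)⁻¹ • u 1 a y) z) < ε
    rw [e1, BInt_mul]
    calc E⁻¹ * _ < E⁻¹ * (ε * E) := mul_lt_mul_of_pos_left hlt (inv_pos.2 hE0)
      _ = ε := by field_simp

theorem iso_of : Iso (Cx.of : H →L[ℝ] Cx H) := fun x y => Cx.norm_sq_of x y

/-- lower bound: some component of `∂u` does not vanish -/
theorem lower (P : PU C) (K : KM C) {u : Γ → C.I → Cm n → H} (hu : Sec C π 0 u) :
    BInt P K (fun a z => grH (K.w a) (u 1 a) (u 1 a) z) ≤
      K.Lam / K.lam * ∑ a, ∑ j, ∫ z in P.K a,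
        ‖DH (fun y => (Cx.of (u 1 a y) : Cx H)) z (Pi.single j 1)‖ ^ 2 := by
  have hP := Vale.Agent.P284.H730.V.vpStmt
  have hl := K.lam_pos
  have hL := H287.V.Lam_pos K
  rw [Finset.mul_sum]
  refine Finset.sum_le_sum fun a _ => ?_
  have hm : MeasurableSet (P.K a) := (P.compactK a).isClosed.measurableSet
  have hd : ∀ z ∈ C.Ω a, DifferentiableAt ℝ (u 1 a) z := fun z hz =>
    (hu.smooth 1 a z hz).differentiableAt (by simp)
  have hVΩ : C.V a ⊆ C.Ω a := H287.V.V_sub C a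
  have hc1 : ContinuousOn (fun z => P.χ a a z * grH (K.w a) (u 1 a) (u 1 a) z * vol (K.w a) z)
      (C.Ω a) := ((chi_cont P a a).mul ((BD_gr hP K hu).cont a)).mul (vol_cont K a)
  have hc2 : ContinuousOn (fun z => D1H (u 1 a) z) (C.Ω a) := cont_D1H (hu.smooth 1 a)
  have e1 : ∫ z in C.V a, P.χ a a z * grH (K.w a) (u 1 a) (u 1 a) z * vol (K.w a) z =
      ∫ z in P.K a, P.χ a a z * grH (K.w a) (u 1 a) (u 1 a) z * vol (K.w a) z := by
    refine setIntegral_eq_of_subset_of_forall_sdiff_eq_zero (t := C.V a) (s := P.K a)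
      measurableSet_ball (P.K_sub a) fun z hz => ?_
    by_cases h3 : P.χ a a z = 0
    · rw [h3, zero_mul, zero_mul]
    · have h4 := P.supp a a z (hVΩ hz.1) h3
      rw [C.T_self a z h4.1] at h4
      exact absurd h4.2 hz.2
  have e2 : ∑ j, ∫ z in P.K a, ‖DH (fun y => (Cx.of (u 1 a y) : Cx H)) z (Pi.single j 1)‖ ^ 2 =
      ∫ z in P.K a, D1H (u 1 a) z := by
    rw [← integral_finsetSum]
    · refine setIntegral_congr_fun hm fun z hz => ?_
      exact (D1H_eq iso_of (hd z (hVΩ (P.K_sub a hz)))).symm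
    · intro j _
      have h5 : ContinuousOn (fun z => ‖DH (fun y => (Cx.of (u 1 a y) : Cx H)) z
          (Pi.single j 1)‖ ^ 2) (P.K a) := by
        have h6 : ContinuousOn (fun z => 1 / 4 * (‖fderiv ℝ (u 1 a) z (Pi.single j 1)‖ ^ 2 +
            ‖fderiv ℝ (u 1 a) z (Complex.I • Pi.single j 1)‖ ^ 2)) (P.K a) := by
          have h7 : ∀ v : Cm n, ContinuousOn (fun z => fderiv ℝ (u 1 a) z v) (P.K a) := by
            intro v z hz
            exact (((hu.smooth 1 a z (hVΩ (P.K_sub a hz))).fderiv_right (m := 0)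
              (by simp)).continuousAt.clm_apply continuousAt_const).continuousWithinAt
          exact continuousOn_const.mul (((h7 _).norm.pow 2).add ((h7 _).norm.pow 2))
        refine h6.congr fun z hz => ?_
        exact norm_DH_L iso_of (hd z (hVΩ (P.K_sub a hz))) _
      exact h5.integrableOn_compact (P.compactK a)
  rw [e1, e2, ← integral_const_mul]
  refine setIntegral_mono_on ((hc1.mono ((P.K_sub a).trans hVΩ)).integrableOn_compact
    (P.compactK a)) (((hc2.mono ((P.K_sub a).trans hVΩ)).integrableOn_compact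
    (P.compactK a)).const_mul _) hm fun z hz => ?_
  have hz' := hVΩ (P.K_sub a hz)
  have h8 := (gr_vol_le hP K hz' (hd z hz')).1
  have h9 : P.χ a a z ≤ 1 := by
    rw [← P.sum_one a z hz']
    exact Finset.single_le_sum (f := fun b => P.χ b a z) (fun b _ => P.nonneg b a z)
      (Finset.mem_univ a)
  have h10 : 0 ≤ grH (K.w a) (u 1 a) (u 1 a) z * vol (K.w a) z :=
    mul_nonneg (grH_nonneg hP ((K.ku a).pos z hz') (hd z hz')) (vol_nn K hz')
  calc P.χ a a z * grH (K.w a) (u 1 a) (u 1 a) z * vol (K.w a) z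
      = P.χ a a z * (grH (K.w a) (u 1 a) (u 1 a) z * vol (K.w a) z) := by ring
    _ ≤ 1 * (grH (K.w a) (u 1 a) (u 1 a) z * vol (K.w a) z) :=
        mul_le_mul_of_nonneg_right h9 h10
    _ ≤ _ := by rw [one_mul]; exact h8

/-- **the sequence**: a group without property (T) gives almost pluriharmonic maps with values in
complex Hilbert spaces (helper551's `PHSeqV`) -/
theorem phseqV_of_kaz (hK : ¬ Kazhdan Γ) (C : Coc n Γ) (P : PU C) (K : KM C) (U : Ultrafilter ℕ)
    (hU : (U : Filter ℕ) ≤ atTop) :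
    ∃ (H : ℕ → Type) (_ : ∀ k, NormedAddCommGroup (H k)) (_ : ∀ k, InnerProductSpace ℂ (H k))
      (_ : ∀ k, CompleteSpace (H k)) (π : ∀ k, Γ →* (H k ≃ₗᵢ[ℂ] H k))
      (u : ∀ k, Γ → C.I → Cm n → H k), PHSeqV C U π (fun _ _ => 0) u := by
  have hP := Vale.Agent.P284.H730.V.vpStmt
  have hl := K.lam_pos
  have hL := H287.V.Lam_pos K
  choose H i1 i2 i3 π u hu hgr hhh using fun k : ℕ =>
    kaz_norm hK C P K (ε := 1 / ((k : ℝ) + 1)) (by positivity)
  have hΩ : ∀ k γ a, ∀ z ∈ C.Ω a, ContDiffAt ℝ ∞ (u k γ a) z := fun k γ a z hz =>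
    (hu k).smooth γ a z hz
  refine ⟨fun k => Cx (H k), fun k => inferInstance, fun k => inferInstance,
    fun k => inferInstance, fun k => Cx.rep (π k), fun k γ a z => Cx.of (u k γ a z), ?_⟩
  refine ⟨fun k γ a z hz => ?_, fun k γ a c z hz _ _ => ?_, fun k g γ a z hz => ?_, ?_, ?_, ?_⟩
  · exact (Cx.of (H := H k)).contDiff.contDiffAt.comp z (hΩ k γ a z hz)
  · show Cx.of (u k γ a z) = Cx.of (u k (γ * C.κ a c z) c (C.T a c z))
    rw [(hu k).compat γ a c z hz]
  · show Cx.of (u k (g * γ) a z) = Cx.rep (π k) g (Cx.of (u k γ a z)) + 0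
    rw [(hu k).equi g γ a z (H287.V.V_sub C a hz), Cx.rep_of, Pi.zero_apply, add_zero, add_zero]
  · refine ⟨8 * n * (K.Lam / K.lam), fun k a => ?_⟩
    have h1 := int_D1H_le hP P K (hu k) 1 a
    rw [hgr, mul_one] at h1
    have h2 : ∫ z in C.V a, ‖fderiv ℝ (fun y => (Cx.of (u k 1 a y) : Cx (H k))) z‖ ^ 2 ≤
        ∫ z in C.V a, 8 * n * D1H (u k 1 a) z := by
      refine setIntegral_mono_on ?_ ((H287.V.intV (cont_D1H (hΩ k 1 a))).const_mul _)
        measurableSet_ball fun z hz => ?_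
      · refine H287.V.intV fun z hz => ?_
        have h3 : ContDiffAt ℝ ∞ (fun y => (Cx.of (u k 1 a y) : Cx (H k))) z :=
          (Cx.of (H := H k)).contDiff.contDiffAt.comp z (hΩ k 1 a z hz)
        exact (((h3.fderiv_right (m := 0) (by simp)).continuousAt.norm).pow 2).continuousWithinAt
      · exact norm_fd_L_sq iso_of ((hΩ k 1 a z (H287.V.V_sub C a hz)).differentiableAt (by simp))
    refine h2.trans ?_
    rw [integral_const_mul]
    exact mul_le_mul_of_nonneg_left h1 (by positivity)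
  · intro a ξ
    have h1 : ∀ k, ∫ z in C.V a, ‖DB (fun y => DH (fun y => (Cx.of (u k 1 a y) : Cx (H k))) y ξ) z‖ ^ 2 ≤
        ‖ξ‖ ^ 2 * n ^ 2 * (K.Lam ^ 2 / K.lam * (1 / ((k : ℝ) + 1))) := by
      intro k
      have h2 := int_D2H_le hP P K (hu k) 1 a
      have h3 : ∫ z in C.V a, ‖DB (fun y => DH (fun y => (Cx.of (u k 1 a y) : Cx (H k))) y ξ) z‖ ^ 2
          ≤ ∫ z in C.V a, ‖ξ‖ ^ 2 * n ^ 2 * D2H (u k 1 a) z := by
        refine integral_mono_of_nonneg (Eventually.of_forall fun z => sq_nonneg _)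
          ((H287.V.intV (cont_D2H (hΩ k 1 a))).const_mul _) ?_
        filter_upwards [ae_restrict_mem (measurableSet_ball)] with z hz
        exact norm_DB_DH_le iso_of (hΩ k 1 a z (H287.V.V_sub C a hz)) ξ
      refine h3.trans ?_
      rw [integral_const_mul]
      refine mul_le_mul_of_nonneg_left (h2.trans ?_) (by positivity)
      exact mul_le_mul_of_nonneg_left (hhh k).le (by positivity)
    have h4 : Tendsto (fun k : ℕ => ‖ξ‖ ^ 2 * n ^ 2 * (K.Lam ^ 2 / K.lam * (1 / ((k : ℝ) + 1))))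
        atTop (𝓝 0) := by
      have h5 := ((tendsto_one_div_add_atTop_nhds_zero_nat (𝕜 := ℝ)).const_mul
        (K.Lam ^ 2 / K.lam)).const_mul (‖ξ‖ ^ 2 * n ^ 2)
      simpa using h5
    exact squeeze_zero (fun k => integral_nonneg fun z => sq_nonneg _) h1 (h4.mono_left hU)
  · by_contra hcon
    push Not at hcon
    have h1 : ∀ a j, Tendsto (fun k => ∫ z in P.K a,
        ‖DH (fun y => (Cx.of (u k 1 a y) : Cx (H k))) z (Pi.single j 1)‖ ^ 2) U (𝓝 0) :=
      fun a j => hcon a (P.K a) (P.K_sub a) (P.compactK a) (Pi.single j 1)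
    have h2 : Tendsto (fun k => K.Lam / K.lam * ∑ a, ∑ j, ∫ z in P.K a,
        ‖DH (fun y => (Cx.of (u k 1 a y) : Cx (H k))) z (Pi.single j 1)‖ ^ 2) U (𝓝 0) := by
      have h3 := (tendsto_finsetSum (Finset.univ : Finset C.I) fun a _ =>
        tendsto_finsetSum (Finset.univ : Finset (Fin n)) fun j _ => h1 a j).const_mul
          (K.Lam / K.lam)
      simpa using h3
    have h3 : ∀ k, (1 : ℝ) ≤ K.Lam / K.lam * ∑ a, ∑ j, ∫ z in P.K a,
        ‖DH (fun y => (Cx.of (u k 1 a y) : Cx (H k))) z (Pi.single j 1)‖ ^ 2 := by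
      intro k
      have h4 := lower P K (hu k)
      rwa [hgr] at h4
    have h5 := ge_of_tendsto' h2 h3
    linarith

end

end Vale.Agent.P284.H15.T
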