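import Vale.Agent.P284.H15.T.Cx
import Vale.Agent.P284.H287.T.T7
import Vale.Agent.P284.H366.WD

/-!
# P284 (helper15), T2: derivatives of a section with values in a complexified space
-/

open scoped Manifold ContDiff Topology Pointwise ComplexConjugate ComplexOrder InnerProductSpace
open Filter Set Metric MeasureTheory

noncomputable section

set_option linter.unusedSectionVars false

namespace Vale.Agent.P284.H15.T

open Vale.Agent.P272.K Vale.Agent.P284.H287.T Vale.Agent.P284.H359.V Vale.Agent.P284.H366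

variable {n : ℕ} {H W : Type} [NormedAddCommGroup H] [InnerProductSpace ℝ H]
  [NormedAddCommGroup W] [InnerProductSpace ℂ W] {L : H →L[ℝ] W}

/-- `L` extends to an isometric embedding of the complexification -/
def Iso (L : H →L[ℝ] W) : Prop := ∀ x y : H, ‖L x + Complex.I • L y‖ ^ 2 = ‖x‖ ^ 2 + ‖y‖ ^ 2

theorem Iso.norm (hL : Iso L) (x : H) : ‖L x‖ = ‖x‖ := by
  have h := hL x 0
  rw [map_zero, smul_zero, add_zero, norm_zero] at h
  exact (pow_left_inj₀ (norm_nonneg _) (norm_nonneg _) two_ne_zero).1 (by rw [h]; ring)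

theorem fd_L {u : Cm n → H} {z : Cm n} (hu : DifferentiableAt ℝ u z) (t : Cm n) :
    fderiv ℝ (fun y => L (u y)) z t = L (fderiv ℝ u z t) := by
  have h := (L.hasFDerivAt.comp z hu.hasFDerivAt).fderiv
  have h2 : (⇑L ∘ u) = fun z => L (u z) := rfl
  rw [h2] at h
  rw [h]
  rfl

theorem DH_L {u : Cm n → H} {z : Cm n} (hu : DifferentiableAt ℝ u z) (ξ : Cm n) :
    DH (fun y => L (u y)) z ξ =
      (1 / 2 : ℂ) • (L (fderiv ℝ u z ξ) - Complex.I • L (fderiv ℝ u z (Complex.I • ξ))) := by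
  rw [DH, fd_L hu, fd_L hu]

theorem norm_DH_L (hL : Iso L) {u : Cm n → H} {z : Cm n} (hu : DifferentiableAt ℝ u z) (ξ : Cm n) :
    ‖DH (fun y => L (u y)) z ξ‖ ^ 2 =
      1 / 4 * (‖fderiv ℝ u z ξ‖ ^ 2 + ‖fderiv ℝ u z (Complex.I • ξ)‖ ^ 2) := by
  have e : L (fderiv ℝ u z ξ) - Complex.I • L (fderiv ℝ u z (Complex.I • ξ)) =
      L (fderiv ℝ u z ξ) + Complex.I • L (-fderiv ℝ u z (Complex.I • ξ)) := by
    rw [map_neg, smul_neg, sub_eq_add_neg]
  rw [DH_L hu, norm_smul, mul_pow, e, hL, norm_neg]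
  norm_num

/-- the second derivatives -/
theorem DB_DH_L {u : Cm n → H} {z : Cm n} (hu : ContDiffAt ℝ ∞ u z) (ξ t : Cm n) :
    DB (fun y => DH (fun y => L (u y)) y ξ) z t = (1 / 4 : ℂ) •
      (L (fderiv ℝ (fun y => fderiv ℝ u y ξ) z t +
          fderiv ℝ (fun y => fderiv ℝ u y (Complex.I • ξ)) z (Complex.I • t)) +
        Complex.I • L (fderiv ℝ (fun y => fderiv ℝ u y ξ) z (Complex.I • t) -
          fderiv ℝ (fun y => fderiv ℝ u y (Complex.I • ξ)) z t)) := by
  have hd : ∀ v : Cm n, DifferentiableAt ℝ (fun y => fderiv ℝ u y v) z := fun v =>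
    ((hu.fderiv_right (m := ∞) (by simp)).clm_apply contDiffAt_const).differentiableAt (by simp)
  have hev : (fun y => DH (fun y => L (u y)) y ξ) =ᶠ[𝓝 z] fun y =>
      (1 / 2 : ℂ) • (L (fderiv ℝ u y ξ) - Complex.I • L (fderiv ℝ u y (Complex.I • ξ))) := by
    have h1 : ContDiffAt ℝ 1 u z := hu.of_le (by norm_cast)
    filter_upwards [h1.eventually (by simp)] with y hy
    exact DH_L (hy.differentiableAt (by norm_num)) ξ
  have hg : HasFDerivAt (𝕜 := ℝ) (fun y => (1 / 2 : ℂ) • (L (fderiv ℝ u y ξ) -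
      Complex.I • L (fderiv ℝ u y (Complex.I • ξ))))
      ((1 / 2 : ℂ) • (L.comp (fderiv ℝ (fun y => fderiv ℝ u y ξ) z) -
        Complex.I • L.comp (fderiv ℝ (fun y => fderiv ℝ u y (Complex.I • ξ)) z))) z := by
    have h1 := L.hasFDerivAt.comp z (hd ξ).hasFDerivAt
    have h2 := L.hasFDerivAt.comp z (hd (Complex.I • ξ)).hasFDerivAt
    exact (h1.sub (h2.const_smul Complex.I)).const_smul (1 / 2 : ℂ)
  rw [DB_apply, hev.fderiv_eq, hg.fderiv]
  simp only [smul_apply, sub_apply, ContinuousLinearMap.comp_apply, map_add, map_sub, smul_add, smul_sub, smul_smul]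
  match_scalars
  · ring
  · ring
  · ring
  · linear_combination (-1 / 4 : ℂ) * Complex.I_mul_I

theorem norm_DB_DH_L (hL : Iso L) {u : Cm n → H} {z : Cm n} (hu : ContDiffAt ℝ ∞ u z)
    (j k : Fin n) : ‖DB (fun y => DH (fun y => L (u y)) y (Pi.single j 1)) z (Pi.single k 1)‖ ^ 2 =
      ‖Aj u z k j‖ ^ 2 + ‖Bj u z k j‖ ^ 2 := by
  have hI : ∀ i : Fin n, Complex.I • (Pi.single i (1 : ℂ) : Cm n) = ev (i, true) := by
    intro i
    unfold ev
    rw [← Pi.single_smul]
    simp
  have h1 : ∀ i : Fin n, (Pi.single i (1 : ℂ) : Cm n) = ev (i, false) := by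
    intro i
    unfold ev
    simp
  rw [DB_DH_L hu, norm_smul, mul_pow, hL]
  simp only [hI]
  rw [h1 j, h1 k]
  have ea : fderiv ℝ (fun y => fderiv ℝ u y (ev (j, false))) z (ev (k, false)) +
      fderiv ℝ (fun y => fderiv ℝ u y (ev (j, true))) z (ev (k, true)) = (4 : ℝ) • Aj u z k j := by
    unfold Aj ddH
    rw [smul_smul]; norm_num
  have eb : fderiv ℝ (fun y => fderiv ℝ u y (ev (j, false))) z (ev (k, true)) -
      fderiv ℝ (fun y => fderiv ℝ u y (ev (j, true))) z (ev (k, false)) =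
      (-4 : ℝ) • Bj u z k j := by
    unfold Bj ddH
    rw [smul_smul, smul_sub]
    norm_num
    abel
  rw [ea, eb, norm_smul, norm_smul]
  norm_num
  ring

/-- the energy density -/
theorem D1H_eq (hL : Iso L) {u : Cm n → H} {z : Cm n} (hu : DifferentiableAt ℝ u z) :
    D1H u z = ∑ j, ‖DH (fun y => L (u y)) z (Pi.single j 1)‖ ^ 2 := by
  have hI : ∀ i : Fin n, Complex.I • (Pi.single i (1 : ℂ) : Cm n) = ev (i, true) := by
    intro i
    unfold ev
    rw [← Pi.single_smul]
    simp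
  have h1 : ∀ i : Fin n, (Pi.single i (1 : ℂ) : Cm n) = ev (i, false) := by
    intro i
    unfold ev
    simp
  simp only [norm_DH_L hL hu, hI]
  rw [D1H, Fintype.sum_prod_type, Finset.mul_sum]
  refine Finset.sum_congr rfl fun j _ => ?_
  rw [Fintype.sum_bool, h1 j, dH, dH]
  ring

/-- expansion in real coordinates -/
theorem real_exp (t : Cm n) : t = ∑ j, ((t j).re • ev (j, false) + (t j).im • ev (j, true)) := by
  conv_lhs => rw [pi_eq_sum_univ' t]
  refine Finset.sum_congr rfl fun j _ => ?_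
  unfold ev
  ext i
  simp only [Pi.smul_apply, Pi.add_apply, smul_eq_mul, Pi.single_apply, if_true,
    Complex.real_smul]
  by_cases h : i = j
  · subst h
    simp
  · simp [h]

theorem norm_fd_le {u : Cm n → H} {z : Cm n} :
    ‖fderiv ℝ u z‖ ≤ ∑ a : Fin n × Bool, ‖dH u z a‖ := by
  refine ContinuousLinearMap.opNorm_le_bound _ (Finset.sum_nonneg fun _ _ => norm_nonneg _)
    fun t => ?_
  conv_lhs => rw [real_exp t]
  rw [map_sum, Fintype.sum_prod_type, Finset.sum_mul]
  refine (norm_sum_le _ _).trans (Finset.sum_le_sum fun j _ => ?_)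
  rw [Fintype.sum_bool, map_add, map_smul, map_smul, add_comm ‖dH u z (j, true)‖, add_mul]
  refine (norm_add_le _ _).trans (add_le_add ?_ ?_)
  · rw [norm_smul, mul_comm]
    refine mul_le_mul_of_nonneg_left ?_ (norm_nonneg _)
    rw [Real.norm_eq_abs]
    exact (Complex.abs_re_le_norm _).trans (norm_le_pi_norm t j)
  · rw [norm_smul, mul_comm]
    refine mul_le_mul_of_nonneg_left ?_ (norm_nonneg _)
    rw [Real.norm_eq_abs]
    exact (Complex.abs_im_le_norm _).trans (norm_le_pi_norm t j)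

theorem norm_fd_L_sq (hL : Iso L) {u : Cm n → H} {z : Cm n} (hu : DifferentiableAt ℝ u z) :
    ‖fderiv ℝ (fun y => L (u y)) z‖ ^ 2 ≤ 8 * n * D1H u z := by
  have h1 : ‖fderiv ℝ (fun y => L (u y)) z‖ ≤ ‖fderiv ℝ u z‖ := by
    refine ContinuousLinearMap.opNorm_le_bound _ (norm_nonneg _) fun t => ?_
    rw [fd_L hu, hL.norm]
    exact ContinuousLinearMap.le_opNorm _ _
  have h2 := sq_sum_le_card_mul_sum_sq (s := (Finset.univ : Finset (Fin n × Bool)))
    (f := fun a => ‖dH u z a‖)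
  have h3 : ((Finset.univ : Finset (Fin n × Bool)).card : ℝ) = 2 * n := by
    rw [Finset.card_univ, Fintype.card_prod, Fintype.card_fin, Fintype.card_bool]
    push_cast
    ring
  rw [h3] at h2
  calc ‖fderiv ℝ (fun y => L (u y)) z‖ ^ 2 ≤ (∑ a : Fin n × Bool, ‖dH u z a‖) ^ 2 :=
        pow_le_pow_left₀ (norm_nonneg _) (h1.trans norm_fd_le) 2
    _ ≤ _ := h2
    _ = 8 * n * D1H u z := by rw [D1H]; ring

/-! ### General directions -/

theorem DH_smulI (g : Cm n → W) (z : Cm n) (ξ : Cm n) (c : ℂ) :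
    DH g z (c • ξ) = c • DH g z ξ := by
  have h : ∀ η : Cm n, c • η = c.re • η + c.im • (Complex.I • η) := by
    intro η
    ext i
    simp only [Pi.smul_apply, Pi.add_apply, smul_eq_mul, Complex.real_smul]
    conv_lhs => rw [← Complex.re_add_im c]
    ring
  have h2 : Complex.I • Complex.I • ξ = -ξ := by
    rw [smul_smul, Complex.I_mul_I, neg_one_smul]
  have hc : c = (c.re : ℂ) + (c.im : ℂ) * Complex.I := (Complex.re_add_im c).symm
  unfold DH
  rw [h ξ, show Complex.I • (c.re • ξ + c.im • (Complex.I • ξ)) =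
    c.re • (Complex.I • ξ) - c.im • ξ by
      rw [smul_add, smul_comm Complex.I c.im, h2, smul_comm Complex.I c.re, smul_neg,
        sub_eq_add_neg]]
  simp only [map_add, map_sub, map_smul]
  set a := fderiv ℝ g z ξ
  set b := fderiv ℝ g z (Complex.I • ξ)
  have hr : ∀ (r : ℝ) (x : W), r • x = (r : ℂ) • x := fun r x => (Complex.coe_smul r x).symm
  simp only [hr]
  rw [hc]
  simp only [Complex.add_re, Complex.ofReal_re, Complex.mul_re, Complex.I_re, mul_zero,
    Complex.ofReal_im, Complex.I_im, mul_one, sub_self, add_zero, Complex.add_im, Complex.mul_im,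
    zero_add]
  match_scalars
  · ring
  · linear_combination (1 / 2 * (c.im : ℂ) : ℂ) * Complex.I_mul_I

theorem DH_add (g : Cm n → W) (z : Cm n) (ξ η : Cm n) :
    DH g z (ξ + η) = DH g z ξ + DH g z η := by
  unfold DH
  rw [smul_add, map_add, map_add]
  module

theorem DH_exp (g : Cm n → W) (z : Cm n) (ξ : Cm n) :
    DH g z ξ = ∑ j, ξ j • DH g z (Pi.single j 1) := by
  let A : Cm n →ₗ[ℂ] W :=
    { toFun := DH g z
      map_add' := DH_add g z
      map_smul' := fun c ξ => DH_smulI g z ξ c }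
  show A ξ = ∑ j, ξ j • A (Pi.single j 1)
  conv_lhs => rw [pi_eq_sum_univ' ξ, map_sum]
  simp only [map_smul]

theorem alp_smulI (T : Cm n →L[ℝ] W) (c : ℂ) (t : Cm n) : alp T (c • t) = conj c • alp T t := by
  have h : c • t = c.re • t + c.im • (Complex.I • t) := by
    ext i
    simp only [Pi.smul_apply, Pi.add_apply, smul_eq_mul, Complex.real_smul]
    conv_lhs => rw [← Complex.re_add_im c]
    ring
  have h2 : Complex.I • Complex.I • t = -t := by
    rw [smul_smul, Complex.I_mul_I, neg_one_smul]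
  have h3 : alp T (Complex.I • t) = -(Complex.I • alp T t) := by
    rw [alp_apply, alp_apply, h2, map_neg]
    match_scalars
    · linear_combination (1 / 2 : ℂ) * Complex.I_mul_I
    · ring
  have hc : conj c = (c.re : ℂ) - (c.im : ℂ) * Complex.I := by
    apply Complex.ext <;> simp
  have hr : ∀ (r : ℝ) (x : W), r • x = (r : ℂ) • x := fun r x => (Complex.coe_smul r x).symm
  rw [h, map_add, map_smul, map_smul, h3, hc, hr, hr]
  match_scalars
  ring

theorem alp_exp (T : Cm n →L[ℝ] W) (t : Cm n) :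
    alp T t = ∑ k, conj (t k) • alp T (Pi.single k 1) := by
  conv_lhs => rw [pi_eq_sum_univ' t, map_sum]
  exact Finset.sum_congr rfl fun k _ => alp_smulI T _ _

/-- the operator norm of `∂̄ (∂_ξ u)` -/
theorem norm_DB_DH_le (hL : Iso L) {u : Cm n → H} {z : Cm n} (hu : ContDiffAt ℝ ∞ u z)
    (ξ : Cm n) : ‖DB (fun y => DH (fun y => L (u y)) y ξ) z‖ ^ 2 ≤
      ‖ξ‖ ^ 2 * n ^ 2 * D2H u z := by
  have hd : ∀ v : Cm n, DifferentiableAt ℝ (fun y => fderiv ℝ u y v) z := fun v =>
    ((hu.fderiv_right (m := ∞) (by simp)).clm_apply contDiffAt_const).differentiableAt (by simp)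
  have hev : ∀ v : Cm n, (fun y => DH (fun y => L (u y)) y v) =ᶠ[𝓝 z] fun y =>
      (1 / 2 : ℂ) • (L (fderiv ℝ u y v) - Complex.I • L (fderiv ℝ u y (Complex.I • v))) := by
    intro v
    have h1 : ContDiffAt ℝ 1 u z := hu.of_le (by norm_cast)
    filter_upwards [h1.eventually (by simp)] with y hy
    exact DH_L (hy.differentiableAt (by norm_num)) v
  have hdd : ∀ v : Cm n, DifferentiableAt ℝ (fun y => DH (fun y => L (u y)) y v) z := by
    intro v
    refine DifferentiableAt.congr_of_eventuallyEq ?_ (hev v)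
    have h1 := (L.differentiableAt.comp z (hd v))
    have h2 := (L.differentiableAt.comp z (hd (Complex.I • v)))
    exact (h1.sub (h2.const_smul Complex.I)).const_smul (1 / 2 : ℂ)
  -- linearity in `ξ`
  have h1 : ∀ t, DB (fun y => DH (fun y => L (u y)) y ξ) z t =
      ∑ j, ξ j • DB (fun y => DH (fun y => L (u y)) y (Pi.single j 1)) z t := by
    intro t
    have e1 : (fun y => DH (fun y => L (u y)) y ξ) =
        fun y => ∑ j, ξ j • DH (fun y => L (u y)) y (Pi.single j 1) :=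
      funext fun y => DH_exp _ _ _
    have e2 : ∀ s, fderiv ℝ (fun y => DH (fun y => L (u y)) y ξ) z s =
        ∑ j, ξ j • fderiv ℝ (fun y => DH (fun y => L (u y)) y (Pi.single j 1)) z s := by
      intro s
      have e9 : HasFDerivAt (𝕜 := ℝ) (fun y => ∑ j, ξ j • DH (fun y => L (u y)) y (Pi.single j 1))
          (∑ j, ξ j • fderiv ℝ (fun y => DH (fun y => L (u y)) y (Pi.single j 1)) z) z :=
        HasFDerivAt.fun_sum fun j _ => (hdd (Pi.single j 1)).hasFDerivAt.const_smul (ξ j)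
      rw [e1, e9.fderiv, sum_apply]
      rfl
    rw [DB_apply, e2, e2]
    simp only [DB_apply, Finset.smul_sum, ← Finset.sum_add_distrib, smul_add, smul_smul]
    refine Finset.sum_congr rfl fun j _ => ?_
    match_scalars <;> ring
  set x : Fin n → Fin n → ℝ := fun k j =>
    ‖DB (fun y => DH (fun y => L (u y)) y (Pi.single j 1)) z (Pi.single k 1)‖ with hx
  have h2 : ‖DB (fun y => DH (fun y => L (u y)) y ξ) z‖ ≤ ‖ξ‖ * ∑ k, ∑ j, x k j := by
    refine ContinuousLinearMap.opNorm_le_bound _ (mul_nonneg (norm_nonneg _)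
      (Finset.sum_nonneg fun _ _ => Finset.sum_nonneg fun _ _ => norm_nonneg _)) fun t => ?_
    have e3 : DB (fun y => DH (fun y => L (u y)) y ξ) z t =
        ∑ k, conj (t k) • DB (fun y => DH (fun y => L (u y)) y ξ) z (Pi.single k 1) :=
      alp_exp _ t
    rw [e3]
    refine (norm_sum_le _ _).trans ?_
    rw [Finset.mul_sum, Finset.sum_mul]
    refine Finset.sum_le_sum fun k _ => ?_
    rw [norm_smul, h1 (Pi.single k 1), RCLike.norm_conj]
    have e4 : ‖∑ j, ξ j • DB (fun y => DH (fun y => L (u y)) y (Pi.single j 1)) z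
        (Pi.single k 1)‖ ≤ ‖ξ‖ * ∑ j, x k j := by
      refine (norm_sum_le _ _).trans ?_
      rw [Finset.mul_sum]
      refine Finset.sum_le_sum fun j _ => ?_
      rw [norm_smul]
      exact mul_le_mul_of_nonneg_right (norm_le_pi_norm ξ j) (norm_nonneg _)
    calc ‖t k‖ * _ ≤ ‖t‖ * (‖ξ‖ * ∑ j, x k j) :=
          mul_le_mul (norm_le_pi_norm t k) e4 (norm_nonneg _) (norm_nonneg _)
      _ = _ := by ring
  have h3 : (∑ k, ∑ j, x k j) ^ 2 ≤ n ^ 2 * D2H u z := by
    have e5 : ∑ k, ∑ j, x k j = ∑ p : Fin n × Fin n, x p.1 p.2 := by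
      rw [Fintype.sum_prod_type]
    have e6 : D2H u z = ∑ p : Fin n × Fin n, x p.1 p.2 ^ 2 := by
      rw [Fintype.sum_prod_type, D2H]
      refine Finset.sum_congr rfl fun k _ => Finset.sum_congr rfl fun j _ => ?_
      exact (norm_DB_DH_L hL hu j k).symm
    have e7 := sq_sum_le_card_mul_sum_sq (s := (Finset.univ : Finset (Fin n × Fin n)))
      (f := fun p => x p.1 p.2)
    have e8 : ((Finset.univ : Finset (Fin n × Fin n)).card : ℝ) = n ^ 2 := by
      rw [Finset.card_univ, Fintype.card_prod, Fintype.card_fin]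
      push_cast
      ring
    rw [e5, e6, ← e8]
    exact e7
  calc ‖DB (fun y => DH (fun y => L (u y)) y ξ) z‖ ^ 2 ≤ (‖ξ‖ * ∑ k, ∑ j, x k j) ^ 2 :=
        pow_le_pow_left₀ (norm_nonneg _) h2 2
    _ = ‖ξ‖ ^ 2 * (∑ k, ∑ j, x k j) ^ 2 := by ring
    _ ≤ ‖ξ‖ ^ 2 * (n ^ 2 * D2H u z) := mul_le_mul_of_nonneg_left h3 (sq_nonneg _)
    _ = _ := by ring

end Vale.Agent.P284.H15.T
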