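import Vale.Agent.P284.H15.T.FibZ
import Vale.Agent.P284.H885.Ker2

/-!
# P284 (helper15), T3⁺: local lemmas along regular fibres; extension from a dense set of fibres
-/

open scoped Manifold ContDiff Topology InnerProductSpace ComplexConjugate Pointwise
open Filter Set Metric

noncomputable section

namespace Vale.Agent.P284.H15.Del

open Vale.Agent.P272.K Vale.Agent.P284.H894.G Vale.Agent.P284.H894.V Vale.Agent.P284.H894.W
  Vale.Agent.P284.H213.Grp Vale.Agent.P284.H619 Vale.Agent.P284.H119.Kaz Vale.Agent.P284.H885.Ker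

section
variable {n q : ℕ} {X : Type} [TopologicalSpace X] [ChartedSpace (Cm n) X]
  {E : Type} [TopologicalSpace E] {p : E → X} {F : E → Cm q} {t : Cm q}

/-- if `g + conj h` is constant along the fibre near `y₁` then the vertical derivatives of `g` vanish at
`y₁` -/
theorem deriv_zero_loc (hp : IsCoveringMap p) (hF : HolE n p F) {y₁ : E} {e₁ : Chart n X}
    (hy₁ : F y₁ = t) (he₁ : At e₁ (p y₁)) (hreg : Reg (n := n) p F y₁) {g h : Cm n → ℂ}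
    (hg : AnalyticAt ℂ g (e₁ (p y₁))) (hh : AnalyticAt ℂ h (e₁ (p y₁))) {M : ℂ}
    (hev : ∀ᶠ y' in 𝓝 y₁, F y' = t → g (e₁ (p y')) + conj (h (e₁ (p y'))) = M) :
    ∀ ξ ∈ VS p F y₁ e₁, fderiv ℂ g (e₁ (p y₁)) ξ = 0 := by
  intro ξ hξ
  obtain ⟨f, ψ, φ, ε, hpar⟩ := exists_Par hp hF hy₁ he₁ hreg
  have h0 : AnalyticAt ℂ ψ 0 := hpar.an 0 (mem_ball_self hpar.pos)
  have h1 : ∀ᶠ z in 𝓝 (0 : Cm n), g (ψ z) + conj (h (ψ z)) = M :=
    hpar.germ0 hp hy₁ (Q := fun z => g z + conj (h z) = M) hev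
  have hgψ : AnalyticAt ℂ (fun z => g (ψ z)) 0 :=
    AnalyticAt.fun_comp (by rw [hpar.ψ0]; exact hg) h0
  have hhψ : AnalyticAt ℂ (fun z => h (ψ z)) 0 :=
    AnalyticAt.fun_comp (by rw [hpar.ψ0]; exact hh) h0
  have h2 : ∀ η, fderiv ℂ (fun z => g (ψ z)) 0 η = 0 := by
    have d1 := hgψ.differentiableAt.hasFDerivAt.restrictScalars ℝ
    have d2 := hhψ.differentiableAt.hasFDerivAt.restrictScalars ℝ
    have d3 : HasFDerivAt (fun z => g (ψ z) + conj (h (ψ z)))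
        ((fderiv ℂ (fun z => g (ψ z)) 0).restrictScalars ℝ +
          (Complex.conjCLE : ℂ →L[ℝ] ℂ).comp ((fderiv ℂ (fun z => h (ψ z)) 0).restrictScalars ℝ))
        0 := d1.add ((Complex.conjCLE : ℂ →L[ℝ] ℂ).hasFDerivAt.comp (0 : Cm n) d2)
    have d4 : HasFDerivAt (fun z => g (ψ z) + conj (h (ψ z))) (0 : Cm n →L[ℝ] ℂ) 0 :=
      (hasFDerivAt_const M (0 : Cm n)).congr_of_eventuallyEq h1
    have d5 := d3.unique d4
    intro η
    have e1 := DFunLike.congr_fun d5 η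
    have e2 := DFunLike.congr_fun d5 (Complex.I • η)
    have e1' : fderiv ℂ (fun z => g (ψ z)) 0 η + conj (fderiv ℂ (fun z => h (ψ z)) 0 η) = 0 := e1
    have e2' : fderiv ℂ (fun z => g (ψ z)) 0 (Complex.I • η) +
        conj (fderiv ℂ (fun z => h (ψ z)) 0 (Complex.I • η)) = 0 := e2
    rw [map_smul, map_smul, smul_eq_mul, smul_eq_mul, map_mul, Complex.conj_I] at e2'
    have e3 : Complex.I * (fderiv ℂ (fun z => g (ψ z)) 0 η -
        conj (fderiv ℂ (fun z => h (ψ z)) 0 η)) = 0 := by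
      rw [mul_sub, ← e2']; ring
    have e4 := (mul_eq_zero.1 e3).resolve_left Complex.I_ne_zero
    have e5 : 2 * fderiv ℂ (fun z => g (ψ z)) 0 η = 0 := by
      linear_combination e1' + e4
    exact (mul_eq_zero.1 e5).resolve_left two_ne_zero
  obtain ⟨-, -, hv3⟩ := hpar.near.self_of_nhds hy₁
  rw [hpar.φ0] at hv3
  have h5 : HasFDerivAt (fun z => g (ψ z)) ((fderiv ℂ g (e₁ (p y₁))).comp (fderiv ℂ ψ 0)) 0 := by
    refine HasFDerivAt.comp (0 : Cm n) (g := g) (f := ψ) ?_ h0.differentiableAt.hasFDerivAt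
    rw [hpar.ψ0]
    exact hg.differentiableAt.hasFDerivAt
  have h6 := h2 (fderiv ℂ φ (e₁ (p y₁)) ξ)
  rw [h5.fderiv, ContinuousLinearMap.comp_apply, hv3 ξ hξ] at h6
  exact h6

variable {W : Type} [NormedAddCommGroup W] [InnerProductSpace ℂ W]

/-- the pairing with `Φ + J Φ` -/
theorem inner_J {J : W →SL[starRingEnd ℂ] W} (hJ1 : ∀ x, J (J x) = x)
    (hJ2 : ∀ x y, ⟪J x, J y⟫_ℂ = ⟪y, x⟫_ℂ) (a x : W) :
    ⟪a, x + J x⟫_ℂ = ⟪a, x⟫_ℂ + conj ⟪J a, x⟫_ℂ := by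
  rw [inner_add_right]
  congr 1
  have h1 : ⟪a, J x⟫_ℂ = ⟪x, J a⟫_ℂ := by
    conv_lhs => rw [← hJ1 a]
    exact hJ2 _ _
  rw [h1, inner_conj_symm]

/-- if `Φ + J Φ` is constant along the fibre near `y₁` then the vertical derivatives of `Φ` vanish -/
theorem deriv_zero_J (hp : IsCoveringMap p) (hF : HolE n p F) {y₁ : E} {e₁ : Chart n X}
    (hy₁ : F y₁ = t) (he₁ : At e₁ (p y₁)) (hreg : Reg (n := n) p F y₁)
    {J : W →SL[starRingEnd ℂ] W} (hJ1 : ∀ x, J (J x) = x)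
    (hJ2 : ∀ x y, ⟪J x, J y⟫_ℂ = ⟪y, x⟫_ℂ) {Φ : Cm n → W} (hΦ : AnalyticAt ℂ Φ (e₁ (p y₁)))
    {M : W} (hev : ∀ᶠ y' in 𝓝 y₁, F y' = t → Φ (e₁ (p y')) + J (Φ (e₁ (p y'))) = M) :
    ∀ ξ ∈ VS p F y₁ e₁, fderiv ℂ Φ (e₁ (p y₁)) ξ = 0 := by
  intro ξ hξ
  set v : W := fderiv ℂ Φ (e₁ (p y₁)) ξ with hv
  have hin : ∀ a : W, AnalyticAt ℂ (fun z => ⟪a, Φ z⟫_ℂ) (e₁ (p y₁)) := fun a =>
    ((innerSL ℂ a).analyticAt _).comp hΦ
  have h1 := deriv_zero_loc hp hF hy₁ he₁ hreg (hin v) (hin (J v)) (M := ⟪v, M⟫_ℂ) (by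
    filter_upwards [hev] with y' h1 h2
    rw [← h1 h2, inner_J hJ1 hJ2]) ξ hξ
  have h2 : HasFDerivAt (fun z => ⟪v, Φ z⟫_ℂ) ((innerSL ℂ v).comp (fderiv ℂ Φ (e₁ (p y₁))))
      (e₁ (p y₁)) := (innerSL ℂ v).hasFDerivAt.comp _ hΦ.differentiableAt.hasFDerivAt
  rw [h2.fderiv] at h1
  exact inner_self_eq_zero.1 h1

/-- a map with `‖u - w‖` invariant under a cocompact group, locally `Φ + J Φ + const`, is constant -/
theorem const_of_max (hp : IsCoveringMap p) (hF : HolE n p F) (hcon : IsConnected (F ⁻¹' {t}))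
    (hreg : ∀ y, F y = t → Reg (n := n) p F y)
    {J : W →SL[starRingEnd ℂ] W} (hJ1 : ∀ x, J (J x) = x)
    (hJ2 : ∀ x y, ⟪J x, J y⟫_ℂ = ⟪y, x⟫_ℂ) {u : E → W}
    (hu : ∀ (y : E) (e : Chart n X), F y = t → At e (p y) → ∃ Φ : Cm n → W,
      AnalyticAt ℂ Φ (e (p y)) ∧ ∀ᶠ y' in 𝓝 y, F y' = t →
        u y' = Φ (e (p y')) + J (Φ (e (p y'))))
    {D : Set E} (hD : IsCompact D) {w : W}
    (hcov : ∀ y, F y = t → ∃ y' ∈ D, F y' = t ∧ ‖u y' - w‖ = ‖u y - w‖) :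
    ∃ M, ∀ y, F y = t → u y = M := by
  have hcont : ContinuousOn u (F ⁻¹' {t}) := by
    intro y hy
    have he : At (chartAt (Cm n) (p y)) (p y) := ⟨chart_mem_atlas _ _, mem_chart_source _ _⟩
    set e := chartAt (Cm n) (p y) with he_def
    obtain ⟨Φ, hΦ, hΦd⟩ := hu y e hy he
    have h1 : ContinuousAt (fun y' => Φ (e (p y'))) y :=
      ContinuousAt.comp (f := fun y' => e (p y')) hΦ.continuousAt (tendsto_ep hp he)
    have h2 : ContinuousAt (fun y' => Φ (e (p y')) + J (Φ (e (p y')))) y :=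
      h1.add (J.continuous.continuousAt.comp h1)
    refine (h2.continuousWithinAt (s := F ⁻¹' {t})).congr_of_eventuallyEq ?_ ?_
    · rw [Filter.EventuallyEq, eventually_nhdsWithin_iff]
      filter_upwards [hΦd] with y' h3 h4 using h3 h4
    · exact hΦd.self_of_nhds hy
  have hclosed : IsClosed (F ⁻¹' {t}) := isClosed_singleton.preimage (hF.continuous hp)
  have hDc : IsCompact (D ∩ F ⁻¹' {t}) := hD.inter_right hclosed
  have hcont' : ContinuousOn (fun y => ‖u y - w‖) (D ∩ F ⁻¹' {t}) :=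
    ((hcont.mono inter_subset_right).sub continuousOn_const).norm
  obtain ⟨y₀, hy₀⟩ := hcon.nonempty
  obtain ⟨y₀', hy₀D, hy₀t, -⟩ := hcov y₀ hy₀
  obtain ⟨yM, hyM, hmax⟩ := hDc.exists_isMaxOn ⟨y₀', hy₀D, hy₀t⟩ hcont'
  have hle : ∀ y, F y = t → ‖u y - w‖ ≤ ‖u yM - w‖ := by
    intro y hy
    obtain ⟨y', h1, h2, h3⟩ := hcov y hy
    rw [← h3]
    exact hmax ⟨h1, h2⟩
  have hyMt : F yM = t := hyM.2
  set a : W := u yM - w with ha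
  have hconst : ∀ y, F y = t → (⟪a, u y⟫_ℂ).re = (⟪a, u yM⟫_ℂ).re := by
    refine re_const_max hp hF hcon.isPreconnected hreg (m := fun y => (⟪a, u y⟫_ℂ).re)
      (fun y e hy he => ?_) hyMt (fun y hy => ?_)
    · obtain ⟨Φ, hΦ, hev⟩ := hu y e hy he
      have hin : ∀ a : W, AnalyticAt ℂ (fun z => ⟪a, Φ z⟫_ℂ) (e (p y)) := fun a =>
        ((innerSL ℂ a).analyticAt _).comp hΦ
      refine ⟨fun z => ⟪a, Φ z⟫_ℂ + ⟪J a, Φ z⟫_ℂ, (hin a).add (hin (J a)), ?_⟩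
      filter_upwards [hev] with y' k1 k2
      show (⟪a, u y'⟫_ℂ).re = _
      rw [k1 k2, inner_J hJ1 hJ2, Complex.add_re, Complex.add_re, Complex.conj_re]
    · have h1 : (⟪a, u y - w⟫_ℂ).re ≤ ‖a‖ * ‖u y - w‖ :=
        re_inner_le_norm (𝕜 := ℂ) a (u y - w)
      have h2 : (⟪a, u yM - w⟫_ℂ).re = ‖a‖ * ‖a‖ := by
        rw [← ha]
        have := inner_self_eq_norm_mul_norm (𝕜 := ℂ) a
        exact this
      have h3 : ‖a‖ * ‖u y - w‖ ≤ ‖a‖ * ‖a‖ := mul_le_mul_of_nonneg_left (hle y hy) (norm_nonneg _)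
      have h4 : (⟪a, u y - w⟫_ℂ).re ≤ (⟪a, u yM - w⟫_ℂ).re := by
        rw [h2]
        exact h1.trans h3
      rw [inner_sub_right, inner_sub_right, Complex.sub_re, Complex.sub_re] at h4
      linarith
  refine ⟨u yM, fun y hy => ?_⟩
  have h1 : (⟪a, u y - w⟫_ℂ).re = ‖a‖ ^ 2 := by
    have h2 : (⟪a, u yM - w⟫_ℂ).re = ‖a‖ * ‖a‖ := by
      rw [← ha]
      exact inner_self_eq_norm_mul_norm (𝕜 := ℂ) a
    rw [inner_sub_right, Complex.sub_re, hconst y hy, ← Complex.sub_re, ← inner_sub_right, h2, sq]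
  have h3 : ‖(u y - w) - a‖ ^ 2 ≤ 0 := by
    have h4 := norm_sub_sq (𝕜 := ℂ) (u y - w) a
    have h5 : RCLike.re ⟪u y - w, a⟫_ℂ = ‖a‖ ^ 2 := by
      rw [← h1, ← inner_conj_symm]
      exact Complex.conj_re _
    rw [h5] at h4
    rw [h4]
    have h6 : ‖u y - w‖ ^ 2 ≤ ‖a‖ ^ 2 := pow_le_pow_left₀ (norm_nonneg _) (hle y hy) 2
    linarith
  have h7 : ‖(u y - w) - a‖ = 0 := by
    have := sq_nonneg ‖(u y - w) - a‖
    exact (pow_eq_zero_iff two_ne_zero).1 (le_antisymm h3 this)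
  have h8 := sub_eq_zero.1 (norm_eq_zero.1 h7)
  rw [ha] at h8
  exact sub_left_injective h8

/-- vertical vectors near a vertical vector at a regular point -/
theorem tendsto_vert {w : Chart n X → Cm n → Matrix (Fin n) (Fin n) ℂ} {B : ℝ}
    (hp : IsCoveringMap p) (hF : HolB p w F B) {Θ : E → Chart n X → (Cm n →L[ℂ] W)} {y₀ : E}
    {e : Chart n X} (hy₀ : Reg (n := n) p F y₀) (he : At e (p y₀))
    (hhol : ∃ A : Cm n → (Cm n →L[ℂ] W), AnalyticAt ℂ A (e (p y₀)) ∧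
      ∀ᶠ y' in 𝓝 y₀, ∀ ξ ∈ VS p F y' e, Θ y' e ξ = A (e (p y')) ξ)
    {ξ₀ : Cm n} (hξ₀ : ξ₀ ∈ VS p F y₀ e) :
    ∃ V : E → Cm n, (∀ᶠ y' in 𝓝 y₀, At e (p y') ∧ V y' ∈ VS p F y' e) ∧
      Tendsto (fun y' => Θ y' e (V y')) (𝓝 y₀) (𝓝 (Θ y₀ e ξ₀)) := by
  obtain ⟨f, hf1, hf2⟩ := H221.holB_an hF y₀ he
  obtain ⟨A, hA1, hA2⟩ := hhol
  obtain ⟨P, hP1, hP2⟩ := vert_proj hf1 (hy₀ e f he hf2)
  have hAt : ∀ᶠ y in 𝓝 y₀, At e (p y) := by
    filter_upwards [(hp.continuous.continuousAt).eventually (e.open_source.mem_nhds he.2)]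
      with y hy
    exact ⟨he.1, hy⟩
  have hP3 : ∀ᶠ y in 𝓝 y₀, (∀ ξ, fderiv ℂ f (e (p y)) (P (e (p y)) ξ) = 0) ∧
      ∀ ξ, fderiv ℂ f (e (p y)) ξ = 0 → P (e (p y)) ξ = ξ :=
    (H221.ev_iff' hp he (Q := fun z => (∀ ξ, fderiv ℂ f z (P z ξ) = 0) ∧
      ∀ ξ, fderiv ℂ f z ξ = 0 → P z ξ = ξ)).2 hP2
  have hVS : ∀ᶠ y' in 𝓝 y₀, At e (p y') ∧ P (e (p y')) ξ₀ ∈ VS p F y' e := by
    filter_upwards [hAt, hP3, hf2.eventually_nhds] with y a1 a2 a4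
    exact ⟨a1, (mem_VS hp a1 a4).2 (a2.1 ξ₀)⟩
  refine ⟨fun y' => P (e (p y')) ξ₀, hVS, ?_⟩
  have hct : Tendsto (fun y' => e (p y')) (𝓝 y₀) (𝓝 (e (p y₀))) := (H221.map_ep' hp he).le
  have h1 : ContinuousAt (fun z => (A z) (P z ξ₀)) (e (p y₀)) :=
    hA1.continuousAt.clm_apply (hP1.continuousAt.clm_apply continuousAt_const)
  have h2 : Tendsto (fun y' => (A (e (p y'))) (P (e (p y')) ξ₀)) (𝓝 y₀)
      (𝓝 ((A (e (p y₀))) (P (e (p y₀)) ξ₀))) := h1.tendsto.comp hct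
  have h3 : P (e (p y₀)) ξ₀ = ξ₀ := (hP3.self_of_nhds).2 ξ₀ ((mem_VS hp he hf2).1 hξ₀)
  rw [h3, ← hA2.self_of_nhds ξ₀ hξ₀] at h2
  refine h2.congr' ?_
  filter_upwards [hA2, hVS] with y' k1 k2
  exact (k1 _ k2.2).symm

/-- **Extension from a dense set of fibres** of a closed condition on the values of `Θ`. -/
theorem dense_ext {w : Chart n X → Cm n → Matrix (Fin n) (Fin n) ℂ} {B : ℝ}
    (hp : IsCoveringMap p) (hF : HolB p w F B) {Θ : E → Chart n X → (Cm n →L[ℂ] W)}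
    (hhol : ∀ y e, Reg (n := n) p F y → At e (p y) → ∃ A : Cm n → (Cm n →L[ℂ] W),
      AnalyticAt ℂ A (e (p y)) ∧ ∀ᶠ y' in 𝓝 y, ∀ ξ ∈ VS p F y' e, Θ y' e ξ = A (e (p y')) ξ)
    {R : Set (Cm q)} (hR : Dense R) {C : Set W} (hC : IsClosed C)
    (hCR : ∀ y e, F y ∈ R → At e (p y) → ∀ ξ ∈ VS p F y e, Θ y e ξ ∈ C) :
    ∀ y e, Reg (n := n) p F y → At e (p y) → ∀ ξ ∈ VS p F y e, Θ y e ξ ∈ C := by
  intro y₀ e hy₀ he ξ₀ hξ₀
  obtain ⟨V, hV, hT⟩ := tendsto_vert hp hF hy₀ he (hhol y₀ e hy₀ he) hξ₀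
  have h1 : ∃ᶠ t in 𝓝 (F y₀), t ∈ R := mem_closure_iff_frequently.1 (hR (F y₀))
  rw [← reg_map hp hF hy₀] at h1
  have h2 : ∃ᶠ y in 𝓝 y₀, F y ∈ R := h1
  refine hC.mem_of_frequently_of_tendsto ?_ hT
  refine (h2.and_eventually hV).mono fun y hy => ?_
  exact hCR y e hy.1 hy.2.1 _ hy.2.2

end

end Vale.Agent.P284.H15.Del
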